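import Vale.Agent.P045.Thin.Multi

/-!
# P045: thinning keeps covers efficient

One line per direction is removed from the plane. Any `p + K` lines covering the rest, up to
`K * p` points, have excess `o (p ^ 2)`: sampled intersection points of covering lines stay free
in a positive proportion, while free points are covered almost exactly once.
-/

open Finset
open scoped Classical

namespace Vale.Agent.P045.Thin

variable {p : ℕ} [Fact p.Prime]

theorem card_two_fixed {s : ℕ} {β : Type*} [DecidableEq β] {i j : Fin s} (hij : i ≠ j) (a b : β)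
    (S : Finset β) :
    #(Fintype.piFinset fun l => if l = i then {a} else if l = j then {b} else S) = #S ^ (s - 2) := by
  rw [Fintype.card_piFinset]
  have e : ∀ l, #(if l = i then ({a} : Finset β) else if l = j then {b} else S) =
      if l ∈ ({i, j} : Finset (Fin s)) then 1 else #S := fun l => by
    by_cases h1 : l = i
    · simp [h1]
    by_cases h2 : l = j
    · simp [h2, Ne.symm hij]
    · simp [h1, h2]
  simp only [e, prod_ite, prod_const_one, one_mul, prod_const]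
  congr 1
  have h := card_filter_add_card_filter_not (s := (univ : Finset (Fin s)))
    (fun l => l ∈ ({i, j} : Finset (Fin s)))
  simp only [card_univ, Fintype.card_fin, filter_mem_eq_inter, univ_inter, card_pair hij] at h
  omega

/-- The lines of `N` through `x`. -/
noncomputable def thru (N : Finset (PLine p)) (x : ZMod p × ZMod p) : Finset (PLine p) :=
  N.filter fun l => x ∈ linePts l

theorem pair_upper (N : Finset (PLine p)) (x : ZMod p × ZMod p) (s : ℕ) :
    #((Fintype.piFinset fun _ : Fin s => N).filter fun g => x ∈ dbl (univ.image g)) ≤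
      s ^ 2 * ((#(thru N x) * (#(thru N x) - 1)) * #N ^ (s - 2)) := by
  set Q := (univ : Finset (Fin s)).offDiag ×ˢ (thru N x).offDiag
  calc _ ≤ #(Q.biUnion fun q => Fintype.piFinset fun l =>
        if l = q.1.1 then {q.2.1} else if l = q.1.2 then {q.2.2} else N) := by
        refine card_le_card fun g hg => ?_
        obtain ⟨hgN, hx⟩ := mem_filter.1 hg
        obtain ⟨l, hl, l', hl', hne⟩ := one_lt_card.1 (mem_filter.1 hx).2
        obtain ⟨hl, hxl⟩ := mem_filter.1 hl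
        obtain ⟨hl', hxl'⟩ := mem_filter.1 hl'
        obtain ⟨i, -, rfl⟩ := mem_image.1 hl
        obtain ⟨j, -, rfl⟩ := mem_image.1 hl'
        have hN := Fintype.mem_piFinset.1 hgN
        refine mem_biUnion.2 ⟨((i, j), (g i, g j)), mem_product.2 ⟨mem_offDiag.2 ⟨mem_univ _,
          mem_univ _, fun e => hne (congrArg g e)⟩, mem_offDiag.2 ⟨mem_filter.2 ⟨hN i, hxl⟩,
          mem_filter.2 ⟨hN j, hxl'⟩, hne⟩⟩, Fintype.mem_piFinset.2 fun l => ?_⟩
        by_cases h1 : l = i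
        · subst h1; simp
        by_cases h2 : l = j
        · subst h2; simp [h1]
        · simp [h1, h2, hN l]
    _ ≤ ∑ q ∈ Q, #N ^ (s - 2) := card_biUnion_le.trans (sum_le_sum fun q hq =>
        (card_two_fixed (mem_offDiag.1 (mem_product.1 hq).1).2.2 _ _ _).le)
    _ ≤ _ := by
        rw [sum_const, smul_eq_mul, card_product, offDiag_card, offDiag_card, card_univ,
          Fintype.card_fin, mul_assoc, Nat.mul_sub_one]
        exact Nat.mul_le_mul_right _ ((Nat.sub_le _ _).trans (pow_two s).ge)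

theorem pair_lower (N : Finset (PLine p)) (x : ZMod p × ZMod p) (s : ℕ) :
    (s * s - s) * (#(thru N x) * (#(thru N x) - 1)) * (#N - #(thru N x)) ^ (s - 2) ≤
      2 * #((Fintype.piFinset fun _ : Fin s => N).filter fun g => x ∈ dbl (univ.image g)) := by
  set M := thru N x with hM
  set Q := (univ : Finset (Fin s)).offDiag ×ˢ M.offDiag
  set E : (Fin s × Fin s) × PLine p × PLine p → Finset (Fin s → PLine p) := fun q =>
    Fintype.piFinset fun l => if l = q.1.1 then {q.2.1} else if l = q.1.2 then {q.2.2} else N \ M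
    with hE
  set P := (Fintype.piFinset fun _ : Fin s => N).filter fun g => x ∈ dbl (univ.image g)
  have hlhs : (s * s - s) * (#M * (#M - 1)) * (#N - #M) ^ (s - 2) = ∑ q ∈ Q, #(E q) := by
    rw [sum_congr rfl fun q hq => card_two_fixed (mem_offDiag.1 (mem_product.1 hq).1).2.2 _ _ _,
      sum_const, smul_eq_mul, card_product, offDiag_card, offDiag_card, card_univ,
      Fintype.card_fin, Nat.mul_sub_one, card_sdiff_of_subset (show M ⊆ N from filter_subset _ _)]
  have hsub : ∀ q ∈ Q, E q ⊆ P := by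
    intro q hq g hg
    obtain ⟨hij, hab⟩ := mem_product.1 hq
    obtain ⟨-, -, hij⟩ := mem_offDiag.1 hij
    obtain ⟨ha, hb, hab⟩ := mem_offDiag.1 hab
    have hg' := Fintype.mem_piFinset.1 hg
    have hi : g q.1.1 = q.2.1 := by simpa using hg' q.1.1
    have hj : g q.1.2 = q.2.2 := by simpa [Ne.symm hij] using hg' q.1.2
    refine mem_filter.2 ⟨Fintype.mem_piFinset.2 fun l => ?_, mem_filter.2 ⟨mem_univ _,
      one_lt_card.2 ⟨g q.1.1, ?_, g q.1.2, ?_, by rw [hi, hj]; exact hab⟩⟩⟩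
    · have h := hg' l
      split_ifs at h with h1 h2
      · rw [mem_singleton.1 h]; exact (mem_filter.1 ha).1
      · rw [mem_singleton.1 h]; exact (mem_filter.1 hb).1
      · exact (mem_sdiff.1 h).1
    · exact mem_filter.2 ⟨mem_image_of_mem _ (mem_univ _), by rw [hi]; exact (mem_filter.1 ha).2⟩
    · exact mem_filter.2 ⟨mem_image_of_mem _ (mem_univ _), by rw [hj]; exact (mem_filter.1 hb).2⟩
  rw [hlhs]
  calc ∑ q ∈ Q, #(E q) = ∑ q ∈ Q, #(P.filter fun g => g ∈ E q) := by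
        refine sum_congr rfl fun q hq => congrArg card ?_
        rw [filter_mem_eq_inter, inter_eq_right.2 (hsub q hq)]
    _ = ∑ g ∈ P, #(Q.filter fun q => g ∈ E q) := by simp only [card_filter]; exact sum_comm
    _ ≤ ∑ _g ∈ P, 2 := by
        refine sum_le_sum fun g _ => ?_
        rcases (Q.filter fun q => g ∈ E q).eq_empty_or_nonempty with h | ⟨q₀, hq₀⟩
        · simp [h]
        set hit := (univ : Finset (Fin s)).filter fun l => g l ∈ M with hhit
        have hfacts : ∀ q ∈ Q.filter (fun q => g ∈ E q),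
            hit = {q.1.1, q.1.2} ∧ q.2 = (g q.1.1, g q.1.2) ∧ q.1.1 ≠ q.1.2 := by
          intro q hq
          obtain ⟨hqQ, hg⟩ := mem_filter.1 hq
          obtain ⟨hij, hab⟩ := mem_product.1 hqQ
          obtain ⟨-, -, hij⟩ := mem_offDiag.1 hij
          obtain ⟨ha, hb, -⟩ := mem_offDiag.1 hab
          have hg' := Fintype.mem_piFinset.1 hg
          have hi : g q.1.1 = q.2.1 := by simpa using hg' q.1.1
          have hj : g q.1.2 = q.2.2 := by simpa [Ne.symm hij] using hg' q.1.2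
          refine ⟨?_, by rw [hi, hj], hij⟩
          ext l
          simp only [hhit, mem_filter, mem_univ, true_and, mem_insert, mem_singleton]
          refine ⟨fun h => ?_, ?_⟩
          · by_contra hc
            push Not at hc
            have := hg' l
            rw [if_neg hc.1, if_neg hc.2] at this
            exact (mem_sdiff.1 this).2 h
          · rintro (rfl | rfl)
            · rw [hi]; exact ha
            · rw [hj]; exact hb
        refine (card_le_card_of_injOn (t := hit.offDiag) Prod.fst (fun q hq => ?_)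
          fun q hq q' hq' h => Prod.ext h ?_).trans ?_
        · obtain ⟨h1, -, h3⟩ := hfacts q hq
          simp [h1, h3]
        · rw [(hfacts q hq).2.1, (hfacts q' hq').2.1, h]
        · obtain ⟨h1, -, h3⟩ := hfacts q₀ hq₀
          rw [offDiag_card, h1, card_pair h3]
    _ = 2 * #P := by rw [sum_const, smul_eq_mul, mul_comm]

theorem flag_card (N : Finset (PLine p)) (x : ZMod p × ZMod p) (t : ℕ) :
    #((Fintype.piFinset fun _ : Fin t => N).filter fun h => ∀ i, x ∉ linePts (h i)) =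
      (#N - #(thru N x)) ^ t := by
  have e : ((Fintype.piFinset fun _ : Fin t => N).filter fun h => ∀ i, x ∉ linePts (h i)) =
      Fintype.piFinset fun _ => N \ thru N x := by
    ext h
    simp only [mem_filter, Fintype.mem_piFinset, mem_sdiff, thru]
    exact ⟨fun hh i => ⟨hh.1 i, fun hc => hh.2 i hc.2⟩,
      fun hh => ⟨fun i => (hh i).1, fun i hc => (hh i).2 ⟨(hh i).1, hc⟩⟩⟩
  rw [e, Fintype.card_piFinset_const,
    card_sdiff_of_subset (show thru N x ⊆ N from filter_subset _ _)]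

theorem sum_pairs_le (N : Finset (PLine p)) :
    ∑ x, #(thru N x) * (#(thru N x) - 1) ≤ #N ^ 2 := by
  calc ∑ x, #(thru N x) * (#(thru N x) - 1) = ∑ x, #(thru N x).offDiag :=
        sum_congr rfl fun x _ => by rw [offDiag_card, Nat.mul_sub_one]
    _ = ∑ q ∈ N.offDiag, #(linePts q.1 ∩ linePts q.2) := by
        have e : ∀ x, (thru N x).offDiag =
            N.offDiag.filter fun q => x ∈ linePts q.1 ∧ x ∈ linePts q.2 := fun x => by
          ext q; simp [thru]; tauto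
        simp only [e, card_filter]
        rw [sum_comm]
        refine sum_congr rfl fun q _ => ?_
        rw [← card_filter]
        congr 1
        ext x; simp
    _ ≤ ∑ _q ∈ N.offDiag, 1 :=
        sum_le_sum fun q hq => linePts_meet_le _ _ (mem_offDiag.1 hq).2.2
    _ ≤ _ := by
        rw [sum_const, smul_eq_mul, mul_one, offDiag_card, pow_two]
        exact Nat.sub_le _ _

/-- One point: sampled and not flagged, at low degree. -/
theorem point_lower {N : Finset (PLine p)} {x : ZMod p × ZMod p} {s t : ℕ} {D : ℝ} (hs : 2 ≤ s)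
    (hn : 0 < #N) (hmD : (#(thru N x) : ℝ) ≤ D) (hsD : 2 * (s * D) ≤ #N)
    (htD : 2 * (t * D) ≤ #N) :
    (s : ℝ) ^ 2 / (16 * (#N : ℝ) ^ 2) * ((#N : ℝ) ^ s * (#N : ℝ) ^ t) *
        ((#(thru N x) * (#(thru N x) - 1) : ℕ) : ℝ) ≤
      (#((Fintype.piFinset fun _ : Fin s => N).filter fun g => x ∈ dbl (univ.image g)) : ℝ) *
        #((Fintype.piFinset fun _ : Fin t => N).filter fun h => ∀ i, x ∉ linePts (h i)) := by
  set m := #(thru N x)
  set n := #N
  have hn' : (0 : ℝ) < n := by exact_mod_cast hn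
  have hmn : m ≤ n := card_filter_le _ _
  have hmn' : (m : ℝ) ≤ n := Nat.cast_le.2 hmn
  have hpow : ∀ e : ℕ, 2 * ((e : ℝ) * D) ≤ n → (n : ℝ) ^ e / 2 ≤ ((n : ℝ) - m) ^ e := by
    intro e he
    have hu : (m : ℝ) / n ≤ 1 := (div_le_one hn').2 hmn'
    have hb := one_add_mul_le_pow (a := -((m : ℝ) / n)) (by linarith) e
    have h2 : (e : ℝ) * ((m : ℝ) / n) ≤ 1 / 2 := by
      rw [← mul_div_assoc, div_le_iff₀ hn']
      have := mul_le_mul_of_nonneg_left hmD (Nat.cast_nonneg e : (0 : ℝ) ≤ _)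
      linarith
    calc (n : ℝ) ^ e / 2 ≤ (n : ℝ) ^ e * (1 + -((m : ℝ) / n)) ^ e := by
          rw [div_eq_mul_one_div]
          exact mul_le_mul_of_nonneg_left (by linarith) (by positivity)
      _ = _ := by
          rw [← mul_pow]
          congr 1
          field_simp
          ring
  have hs2 : 2 * (((s - 2 : ℕ) : ℝ) * D) ≤ n := by
    refine le_trans ?_ hsD
    have h0 : 0 ≤ D := (Nat.cast_nonneg _).trans hmD
    have h1 : ((s - 2 : ℕ) : ℝ) ≤ s := Nat.cast_le.2 (Nat.sub_le _ _)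
    linarith [mul_le_mul_of_nonneg_right h1 h0]
  have hp1 := (Nat.cast_le (α := ℝ)).2 (pair_lower N x s)
  have hss : s ≤ s * s := Nat.le_mul_self s
  simp only [Nat.cast_mul, Nat.cast_pow, Nat.cast_sub (show #(thru N x) ≤ #N from hmn),
    Nat.cast_sub hss, Nat.cast_ofNat] at hp1
  rw [flag_card, Nat.cast_pow, Nat.cast_sub hmn]
  set P := (#((Fintype.piFinset fun _ : Fin s => N).filter fun g => x ∈ dbl (univ.image g)) : ℝ)
  have hs' : (2 : ℝ) ≤ s := by exact_mod_cast hs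
  have hs4 : (s : ℝ) ^ 2 / 2 ≤ (s : ℝ) * s - s := by nlinarith
  have e1 : (n : ℝ) ^ s = (n : ℝ) ^ 2 * (n : ℝ) ^ (s - 2) := by
    rw [← pow_add, Nat.add_sub_cancel' hs]
  rw [show (s : ℝ) ^ 2 / (16 * (n : ℝ) ^ 2) * ((n : ℝ) ^ s * (n : ℝ) ^ t) *
      ((m * (m - 1) : ℕ) : ℝ) = ((s : ℝ) ^ 2 / 2 * ((m * (m - 1) : ℕ) : ℝ) *
      ((n : ℝ) ^ (s - 2) / 2) / 2) * ((n : ℝ) ^ t / 2) by rw [e1]; field_simp; ring]
  refine mul_le_mul ?_ (hpow t htD) (by positivity) (Nat.cast_nonneg _)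
  rw [div_le_iff₀ two_pos, mul_comm P 2, Nat.cast_mul]
  refine le_trans ?_ hp1
  exact mul_le_mul (mul_le_mul_of_nonneg_right hs4 (by positivity)) (hpow _ hs2) (by positivity)
    (mul_nonneg (by linarith [sq_nonneg (s : ℝ)]) (by positivity))

/-- One point: sampled and not flagged, upper bound. -/
theorem point_upper {N : Finset (PLine p)} {x : ZMod p × ZMod p} {s t : ℕ} {D : ℝ} (hs : 2 ≤ s)
    (ht : 1 ≤ t) (hn : 0 < #N) (hD : 0 < D) :
    (#((Fintype.piFinset fun _ : Fin s => N).filter fun g => x ∈ dbl (univ.image g)) : ℝ) *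
        #((Fintype.piFinset fun _ : Fin t => N).filter fun h => ∀ i, x ∉ linePts (h i)) ≤
      (s : ℝ) ^ 2 / (#N : ℝ) ^ 2 * ((#N : ℝ) ^ s * (#N : ℝ) ^ t) *
        (D * ((#(thru N x) - 1 : ℕ) : ℝ) +
          #N / (t * D) * ((#(thru N x) * (#(thru N x) - 1) : ℕ) : ℝ)) := by
  set m := #(thru N x)
  set n := #N
  have hn' : (0 : ℝ) < n := by exact_mod_cast hn
  have ht' : (0 : ℝ) < t := by exact_mod_cast ht
  have hmn : m ≤ n := card_filter_le _ _
  have hmn' : (m : ℝ) ≤ n := Nat.cast_le.2 hmn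
  have hp1 := (Nat.cast_le (α := ℝ)).2 (pair_upper N x s)
  simp only [Nat.cast_mul, Nat.cast_pow] at hp1
  rw [flag_card, Nat.cast_pow, Nat.cast_sub hmn, Nat.cast_mul]
  set j := ((m - 1 : ℕ) : ℝ)
  have hj : 0 ≤ j := Nat.cast_nonneg _
  have hflag : (m : ℝ) * j * ((n : ℝ) - m) ^ t ≤
      (D * j + n / (t * D) * ((m : ℝ) * j)) * (n : ℝ) ^ t := by
    rcases le_or_gt (m : ℝ) D with h | h
    · refine mul_le_mul (le_trans (mul_le_mul_of_nonneg_right h hj)
        (le_add_of_nonneg_right (by positivity))) ?_ (pow_nonneg (by linarith) _) (by positivity)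
      exact pow_le_pow_left₀ (by linarith) (by linarith [(Nat.cast_nonneg m : (0 : ℝ) ≤ _)]) _
    · have hb : ((n : ℝ) - m) ^ t * (1 + t * (m / n)) ≤ (n : ℝ) ^ t := by
        calc ((n : ℝ) - m) ^ t * (1 + t * (m / n)) ≤ ((n : ℝ) - m) ^ t * (1 + m / n) ^ t :=
              mul_le_mul_of_nonneg_left (one_add_mul_le_pow
                (le_trans (by norm_num) (by positivity : (0 : ℝ) ≤ (m : ℝ) / n)) t)
                (pow_nonneg (by linarith) _)
          _ = ((n : ℝ) - m ^ 2 / n) ^ t := by rw [← mul_pow]; congr 1; field_simp; ring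
          _ ≤ _ := pow_le_pow_left₀ (by
              rw [sub_nonneg, div_le_iff₀ hn', pow_two]
              exact mul_le_mul hmn' hmn' (Nat.cast_nonneg _) hn'.le)
              (by linarith [show (0 : ℝ) ≤ (m : ℝ) ^ 2 / n by positivity]) _
      have h2 : ((n : ℝ) - m) ^ t ≤ n / (t * D) * (n : ℝ) ^ t := by
        have h3 : ((n : ℝ) - m) ^ t * (t * D / n) ≤ (n : ℝ) ^ t := by
          refine le_trans (mul_le_mul_of_nonneg_left ?_ (pow_nonneg (by linarith) _)) hb
          rw [mul_div_assoc]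
          have : t * (D / n) ≤ t * ((m : ℝ) / n) :=
            mul_le_mul_of_nonneg_left (div_le_div_of_nonneg_right h.le hn'.le) ht'.le
          linarith
        calc ((n : ℝ) - m) ^ t = ((n : ℝ) - m) ^ t * (t * D / n) * (n / (t * D)) := by
              field_simp
          _ ≤ (n : ℝ) ^ t * (n / (t * D)) := mul_le_mul_of_nonneg_right h3 (by positivity)
          _ = _ := mul_comm _ _
      calc (m : ℝ) * j * ((n : ℝ) - m) ^ t ≤ (m : ℝ) * j * (n / (t * D) * (n : ℝ) ^ t) :=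
            mul_le_mul_of_nonneg_left h2 (by positivity)
        _ = n / (t * D) * ((m : ℝ) * j) * (n : ℝ) ^ t := by ring
        _ ≤ _ := mul_le_mul_of_nonneg_right (le_add_of_nonneg_left (by positivity)) (by positivity)
  have e1 : (n : ℝ) ^ s = (n : ℝ) ^ 2 * (n : ℝ) ^ (s - 2) := by
    rw [← pow_add, Nat.add_sub_cancel' hs]
  calc _ ≤ (s : ℝ) ^ 2 * ((m : ℝ) * j * (n : ℝ) ^ (s - 2)) * ((n : ℝ) - m) ^ t :=
        mul_le_mul_of_nonneg_right hp1 (pow_nonneg (by linarith) _)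
    _ = (s : ℝ) ^ 2 * (n : ℝ) ^ (s - 2) * ((m : ℝ) * j * ((n : ℝ) - m) ^ t) := by ring
    _ ≤ (s : ℝ) ^ 2 * (n : ℝ) ^ (s - 2) * ((D * j + n / (t * D) * ((m : ℝ) * j)) * (n : ℝ) ^ t) :=
        mul_le_mul_of_nonneg_left hflag (by positivity)
    _ = _ := by rw [e1]; field_simp

/-- Averaging over the samples. -/
theorem excess_le {b : Option (ZMod p) → ZMod p} {s t k H : ℕ} {T W η D D' Λ : ℝ}
    (hG : Good b s t k H T W η) (N : Finset (PLine p)) (hN : ∀ l ∈ N, l.2 ≠ b l.1)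
    (hs : 2 ≤ s) (ht : 1 ≤ t) (hn : 0 < #N) (hD : 1 ≤ D) (hD' : 0 < D')
    (hsD : 2 * (s * D) ≤ #N) (htD : 2 * (t * D) ≤ #N)
    (hΛ : ∑ x ∈ free b, ((mult N linePts x - 1 : ℕ) : ℝ) ≤ Λ) :
    (excess N linePts : ℝ) ≤ (#N : ℝ) ^ 2 / D + 512 * (D' * Λ + (#N : ℝ) ^ 3 / (t * D')) +
      16 * (#N : ℝ) ^ 2 * (32 * (53248 * k * s + 26 * s * H) + η) / (s : ℝ) ^ 2 := by
  set n : ℝ := (#N : ℝ) with hn_def
  have hn' : 0 < n := by rw [hn_def]; exact_mod_cast hn
  set G := Fintype.piFinset fun _ : Fin s => N with hGdef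
  set HH := Fintype.piFinset fun _ : Fin t => N with hHdef
  set c : ℝ := 32 * (53248 * k * s + 26 * s * H) + η with hc
  set Z : ℝ := n ^ s * n ^ t
  set m : ZMod p × ZMod p → ℕ := fun x => #(thru N x) with hm
  set P2 : ZMod p × ZMod p → ℝ := fun x =>
    (#(G.filter fun g => x ∈ dbl (univ.image g)) : ℝ) *
      #(HH.filter fun h => ∀ i, x ∉ linePts (h i)) with hP2
  have hswap : ∀ Y : Finset (ZMod p × ZMod p),
      ∑ g ∈ G, ∑ h ∈ HH, (#(samplePts g h ∩ Y) : ℝ) = ∑ x ∈ Y, P2 x := by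
    intro Y
    have e : ∀ (g : Fin s → PLine p) (h : Fin t → PLine p), (#(samplePts g h ∩ Y) : ℝ) =
        ∑ x ∈ Y, (if x ∈ dbl (univ.image g) then (1 : ℝ) else 0) *
          if ∀ i, x ∉ linePts (h i) then (1 : ℝ) else 0 := fun g h => by
      simp only [ite_zero_mul_ite_zero, one_mul, sum_boole]
      congr 2
      ext x; simp [samplePts]; tauto
    simp only [e]
    rw [sum_congr rfl fun g _ => sum_comm, sum_comm]
    refine sum_congr rfl fun x _ => ?_
    simp only [hP2, ← sum_boole]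
    rw [sum_mul_sum]
  have hcards : (#G : ℝ) * #HH = Z := by
    rw [hGdef, hHdef, Fintype.card_piFinset_const, Fintype.card_piFinset_const]
    push_cast; rfl
  have hkeep : ∑ x, P2 x ≤ 32 * ∑ x ∈ free b, P2 x + c * Z := by
    rw [← hswap univ, ← hswap (free b), ← hcards]
    calc ∑ g ∈ G, ∑ h ∈ HH, (#(samplePts g h ∩ univ) : ℝ)
        ≤ ∑ g ∈ G, ∑ h ∈ HH, (32 * (#(samplePts g h ∩ free b) : ℝ) + c) := by
          refine sum_le_sum fun g hg => sum_le_sum fun h _ => ?_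
          rw [inter_univ]
          exact (hG.keep g (fun i => hN _ (Fintype.mem_piFinset.1 hg i)) h).trans_eq
            (by rw [hc]; ring)
      _ = _ := by simp only [sum_add_distrib, sum_const, nsmul_eq_mul, ← mul_sum]; ring
  -- lower bound
  set low := (univ : Finset (ZMod p × ZMod p)).filter fun x => (m x : ℝ) ≤ D with hlow
  have hexc : (excess N linePts : ℝ) ≤
      ∑ x ∈ low, ((m x * (m x - 1) : ℕ) : ℝ) + n ^ 2 / D := by
    have e : (excess N linePts : ℝ) = ∑ x ∈ low, ((m x - 1 : ℕ) : ℝ) +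
        ∑ x ∈ univ.filter (fun x => ¬(m x : ℝ) ≤ D), ((m x - 1 : ℕ) : ℝ) := by
      rw [hlow, sum_filter_add_sum_filter_not univ (fun x => (m x : ℝ) ≤ D)
        (fun x => ((m x - 1 : ℕ) : ℝ)), excess, Nat.cast_sum]
      rfl
    rw [e]
    refine add_le_add (sum_le_sum fun x _ => Nat.cast_le.2 ?_) ?_
    · rcases Nat.eq_zero_or_pos (m x) with h | h
      · simp [h]
      · exact Nat.le_mul_of_pos_left _ h
    · rw [le_div_iff₀ (by linarith), sum_mul]
      have h2 : ∑ x, ((m x * (m x - 1) : ℕ) : ℝ) ≤ n ^ 2 := by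
        rw [← Nat.cast_sum, hn_def]; exact_mod_cast sum_pairs_le N
      refine le_trans (sum_le_sum fun x hx => ?_) (le_trans
        (sum_le_sum_of_subset_of_nonneg (filter_subset _ _) fun x _ _ => Nat.cast_nonneg _) h2)
      push_cast
      rw [mul_comm]
      exact mul_le_mul_of_nonneg_right (not_le.1 (mem_filter.1 hx).2).le (Nat.cast_nonneg _)
  have hlowP : (s : ℝ) ^ 2 / (16 * n ^ 2) * Z * ∑ x ∈ low, ((m x * (m x - 1) : ℕ) : ℝ) ≤
      ∑ x, P2 x := by
    rw [mul_sum]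
    refine (sum_le_sum fun x hx => ?_).trans (sum_le_sum_of_subset_of_nonneg (filter_subset _ _)
      fun x _ _ => mul_nonneg (Nat.cast_nonneg _) (Nat.cast_nonneg _))
    exact point_lower hs hn (mem_filter.1 hx).2 hsD htD
  -- upper bound
  have hupP : ∑ x ∈ free b, P2 x ≤ (s : ℝ) ^ 2 / n ^ 2 * Z * (D' * Λ + n ^ 3 / (t * D')) := by
    refine (sum_le_sum fun x _ => point_upper hs ht hn hD').trans ?_
    rw [← mul_sum, sum_add_distrib, ← mul_sum, ← mul_sum]
    refine mul_le_mul_of_nonneg_left (add_le_add (mul_le_mul_of_nonneg_left hΛ hD'.le) ?_)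
      (by positivity)
    rw [show n ^ 3 / (t * D') = n / (t * D') * n ^ 2 by ring]
    refine mul_le_mul_of_nonneg_left ?_ (by positivity)
    refine (sum_le_sum_of_subset_of_nonneg (subset_univ _) fun x _ _ => Nat.cast_nonneg _).trans ?_
    rw [← Nat.cast_sum, hn_def]; exact_mod_cast sum_pairs_le N
  have hZ : 0 < Z := by positivity
  have hs' : (0 : ℝ) < s := by exact_mod_cast (by omega : 0 < s)
  have hc1 : (s : ℝ) ^ 2 / (16 * n ^ 2) * Z * ∑ x ∈ low, ((m x * (m x - 1) : ℕ) : ℝ) ≤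
      (s : ℝ) ^ 2 / (16 * n ^ 2) * Z *
        (512 * (D' * Λ + n ^ 3 / (t * D')) + 16 * n ^ 2 * c / (s : ℝ) ^ 2) := by
    refine hlowP.trans (hkeep.trans ?_)
    calc 32 * ∑ x ∈ free b, P2 x + c * Z
        ≤ 32 * ((s : ℝ) ^ 2 / n ^ 2 * Z * (D' * Λ + n ^ 3 / (t * D'))) + c * Z := by gcongr
      _ = _ := by field_simp; ring
  have hc2 := le_of_mul_le_mul_left hc1 (by positivity)
  linarith

/-- The parameters admit a good choice. -/
theorem exists_choice (o : ZMod p × ZMod p) {R : ℕ} (hR6 : 1000000 ≤ R) (hpl : R ^ 100 ≤ p)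
    (hpu : p ≤ 2 * R ^ 100) :
    ∃ b ∈ choices o, Good b (R ^ 28) (R ^ 54) (R ^ 21) (R ^ 14) ((R : ℝ) ^ 51) ((R : ℝ) ^ 151)
      (32000 * (R : ℝ) ^ 55) := by
  have hr : (1000000 : ℝ) ≤ R := by exact_mod_cast hR6
  have hr1 : (1 : ℝ) ≤ R := le_trans (by norm_num) hr
  have hr0 : (0 : ℝ) < R := by linarith
  have hPl : (R : ℝ) ^ 100 ≤ p := by exact_mod_cast hpl
  have hPu : (p : ℝ) ≤ 2 * (R : ℝ) ^ 100 := by exact_mod_cast hpu
  have hmono : ∀ {i j : ℕ}, i ≤ j → (R : ℝ) ^ i ≤ (R : ℝ) ^ j := fun h => pow_le_pow_right₀ hr1 h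
  have hbig : ∀ {i j : ℕ}, i < j → (1000000 : ℝ) * (R : ℝ) ^ i ≤ (R : ℝ) ^ j := fun {i j} h => by
    refine le_trans ?_ (hmono h)
    rw [pow_succ, mul_comm]
    exact mul_le_mul_of_nonneg_left hr (pow_nonneg hr0.le _)
  have hp19 : 19 ≤ p := by
    refine le_trans ?_ hpl
    exact le_trans (by omega) (Nat.le_self_pow (by norm_num) R)
  have hp' : (19 : ℝ) ≤ p := by exact_mod_cast hp19
  have hp0 : (0 : ℝ) < p := by linarith
  have hexpR : (R : ℝ) ≤ Real.exp R := by linarith [Real.add_one_le_exp (R : ℝ)]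
  have hpp : 2 * (p : ℝ) ^ 2 ≤ (R : ℝ) ^ 201 := by
    calc 2 * (p : ℝ) ^ 2 ≤ 2 * (2 * (R : ℝ) ^ 100) ^ 2 := by gcongr
      _ = 8 * (R : ℝ) ^ 200 := by ring
      _ ≤ 1000000 * (R : ℝ) ^ 200 := by gcongr; norm_num
      _ ≤ _ := hbig (by norm_num)
  have hpexp : 2 * (p : ℝ) ^ 2 ≤ Real.exp (201 * R) := by
    refine hpp.trans ((pow_le_pow_left₀ hr0.le hexpR 201).trans_eq ?_)
    rw [← Real.exp_nat_mul]; norm_num
  have h8 : Real.exp (-(R : ℝ)) ≤ 1 / 8 := by
    rw [Real.exp_neg, one_div]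
    exact inv_anti₀ (by norm_num) (le_trans (by linarith) hexpR)
  have hTp : (R : ℝ) ^ 51 ≤ p := (hmono (by norm_num)).trans hPl
  exact exists_good o hp19 (s := R ^ 28) (t := R ^ 54) (k := R ^ 21) (H := R ^ 14)
    (T := (R : ℝ) ^ 51) (W := (R : ℝ) ^ 151) (η := 32000 * (R : ℝ) ^ 55) (lam := (R : ℝ) ^ 16)
    (pow_pos (by omega) _)
    (by
      rw [show R ^ 28 = R ^ 7 * R ^ 21 by rw [← pow_add]]
      exact Nat.mul_le_mul_right _ (le_trans (by omega) (Nat.le_self_pow (by norm_num) R)))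
    (by ring) (one_le_pow₀ hr1) hTp (by positivity) (one_le_pow₀ hr1)
    (by
      have h1 : (R : ℝ) ^ 2 / 16 ≤ ((R : ℝ) ^ 51) ^ 2 / (8 * p) := by
        rw [div_le_div_iff₀ (by norm_num) (by positivity)]
        calc (R : ℝ) ^ 2 * (8 * p) ≤ (R : ℝ) ^ 2 * (8 * (2 * (R : ℝ) ^ 100)) := by gcongr
          _ = _ := by ring
      calc _ ≤ Real.exp (201 * R) * Real.exp (-((R : ℝ) ^ 2 / 16)) :=
            mul_le_mul hpexp (Real.exp_le_exp.2 (by linarith)) (Real.exp_pos _).le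
              (Real.exp_pos _).le
        _ ≤ Real.exp (-(R : ℝ)) := by
            rw [← Real.exp_add]; refine Real.exp_le_exp.2 ?_; nlinarith
        _ ≤ _ := h8)
    (by
      calc 25 * (p : ℝ) ^ 3 ≤ 25 * (2 * (R : ℝ) ^ 100) ^ 3 := by gcongr
        _ ≤ _ := by
          rw [le_div_iff₀ (by norm_num)]
          have := hbig (show 300 < 302 by norm_num)
          have e : ((R : ℝ) ^ 151) ^ 2 = (R : ℝ) ^ 302 := by rw [← pow_mul]
          rw [e, show 25 * (2 * (R : ℝ) ^ 100) ^ 3 * 8 = 1600 * (R : ℝ) ^ 300 by ring]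
          linarith [pow_nonneg hr0.le 300])
    (by
      have h1 : (R : ℝ) ^ 16 * (((R ^ 28 : ℕ) : ℝ)) ^ 3 / ((p : ℝ) - 1) ≤ 2 := by
        rw [div_le_iff₀ (by linarith), Nat.cast_pow]
        calc (R : ℝ) ^ 16 * ((R : ℝ) ^ 28) ^ 3 = (R : ℝ) ^ 100 := by ring
          _ ≤ _ := by linarith
      have h2 : Real.exp 2 ≤ 8 := by
        rw [show (2 : ℝ) = 1 + 1 by norm_num, Real.exp_add]
        calc _ ≤ (2.72 : ℝ) * 2.72 := mul_le_mul (Real.exp_one_lt_d9.le.trans (by norm_num))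
              (Real.exp_one_lt_d9.le.trans (by norm_num)) (Real.exp_pos _).le (by norm_num)
          _ ≤ _ := by norm_num
      calc _ ≤ 4 * (2 * (R : ℝ) ^ 100) ^ 2 * (8 / ((R : ℝ) ^ 16) ^ 13) := by
            gcongr; exact (Real.exp_le_exp.2 h1).trans h2
        _ ≤ _ := by
            rw [mul_div_assoc', div_le_iff₀ (by positivity)]
            have := hbig (show 200 < 208 by norm_num)
            rw [show 4 * (2 * (R : ℝ) ^ 100) ^ 2 * 8 = 128 * (R : ℝ) ^ 200 by ring,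
              ← pow_mul]
            linarith [pow_nonneg hr0.le 200])
    (by
      have h1 : (2 * (p : ℝ) ^ 2) ^ (R ^ 28 + R ^ 54) ≤ Real.exp (402 * (R : ℝ) ^ 55) := by
        refine (pow_le_pow_left₀ (by positivity) hpexp _).trans ?_
        rw [← Real.exp_nat_mul]
        refine Real.exp_le_exp.2 ?_
        push_cast
        calc ((R : ℝ) ^ 28 + (R : ℝ) ^ 54) * (201 * R) ≤
              ((R : ℝ) ^ 54 + (R : ℝ) ^ 54) * (201 * R) := by
              gcongr
              norm_num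
          _ = _ := by ring
      calc _ ≤ Real.exp (402 * (R : ℝ) ^ 55) * Real.exp (-(32000 * (R : ℝ) ^ 55 / 32)) := by
            gcongr
        _ ≤ Real.exp (-(R : ℝ)) := by
            rw [← Real.exp_add]
            refine Real.exp_le_exp.2 ?_
            have := hmono (show 1 ≤ 55 by norm_num)
            rw [pow_one] at this
            linarith
        _ ≤ _ := h8)

/-- Free points are covered almost exactly once. -/
theorem free_bounds {b : Option (ZMod p) → ZMod p} {R K s t k H : ℕ} {η : ℝ}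
    (hR6 : 1000000 ≤ R) (hRK : K + 1 ≤ R) (hpl : R ^ 100 ≤ p) (hpu : p ≤ 2 * R ^ 100)
    (hG : Good b s t k H ((R : ℝ) ^ 51) ((R : ℝ) ^ 151) η)
    {N : Finset (PLine p)} (hN : #N ≤ p + K) {S : Finset (ZMod p × ZMod p)} (hS : #S ≤ K * p)
    (hcov : ∀ x, x ∉ S → (∀ d, x ∉ linePts (d, b d)) → ∃ l ∈ N, x ∈ linePts l) :
    (∑ x ∈ free b, ((mult (N.filter fun l => l.2 ≠ b l.1) linePts x - 1 : ℕ) : ℝ) ≤
        12 * (R : ℝ) ^ 151) ∧
      ((p : ℝ) - #(N.filter fun l => l.2 ≠ b l.1)) * p ≤ 36 * (R : ℝ) ^ 151 := by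
  have hr : (1000000 : ℝ) ≤ R := by exact_mod_cast hR6
  have hr1 : (1 : ℝ) ≤ R := le_trans (by norm_num) hr
  have hr0 : (0 : ℝ) < R := by linarith
  have hKR : (K : ℝ) + 1 ≤ R := by exact_mod_cast hRK
  have hPl : (R : ℝ) ^ 100 ≤ p := by exact_mod_cast hpl
  have hPu : (p : ℝ) ≤ 2 * (R : ℝ) ^ 100 := by exact_mod_cast hpu
  have hmono : ∀ {i j : ℕ}, i ≤ j → (R : ℝ) ^ i ≤ (R : ℝ) ^ j := fun h => pow_le_pow_right₀ hr1 h
  have hbig : ∀ {i j : ℕ}, i < j → (1000000 : ℝ) * (R : ℝ) ^ i ≤ (R : ℝ) ^ j := fun {i j} h => by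
    refine le_trans ?_ (hmono h)
    rw [pow_succ, mul_comm]
    exact mul_le_mul_of_nonneg_left hr (pow_nonneg hr0.le _)
  have hp0 : (0 : ℝ) < p := by linarith [pow_pos hr0 100]
  set N' := N.filter fun l => l.2 ≠ b l.1 with hN'
  set E := Real.exp (-1) with hE
  have hE3 : 1 / 3 ≤ E := by
    rw [hE, Real.exp_neg, one_div]
    exact inv_anti₀ (Real.exp_pos _) (Real.exp_one_lt_d9.le.trans (by norm_num))
  have hE1 : E ≤ 1 := Real.exp_le_one_iff.2 (by norm_num)
  have hN'N : (#N' : ℝ) ≤ #N := Nat.cast_le.2 (card_filter_le _ _)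
  have hNp : (#N : ℝ) ≤ p + K := by exact_mod_cast hN
  have hSp : (#S : ℝ) ≤ K * p := by exact_mod_cast hS
  have hKp : (K : ℝ) ≤ p := by
    have h := (hmono (show 1 ≤ 100 by norm_num)).trans hPl
    rw [pow_one] at h
    linarith
  have hinc : ∑ x ∈ free b, ((mult N' linePts x : ℕ) : ℝ) ≤
      (#N' : ℝ) * ((p : ℝ) * E + 2 * (R : ℝ) ^ 51) := by
    have e : ∑ x ∈ free b, mult N' linePts x = ∑ l ∈ N', #(linePts l ∩ free b) := by
      simp only [mult, card_filter]
      rw [sum_comm]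
      refine sum_congr rfl fun l _ => ?_
      rw [← card_filter, filter_mem_eq_inter, inter_comm]
    rw [← Nat.cast_sum, e, Nat.cast_sum, ← nsmul_eq_mul, ← sum_const]
    exact sum_le_sum fun l _ => hG.line l
  have hpoint : ∀ x ∈ free b,
      (mult N' linePts x - 1) + 1 ≤ mult N' linePts x + if x ∈ S then 1 else 0 := by
    intro x hx
    by_cases hxS : x ∈ S
    · rw [if_pos hxS]; omega
    · rw [if_neg hxS]
      have hf := (mem_filter.1 hx).2
      obtain ⟨l, hl, hxl⟩ := hcov x hxS fun d hd => hf d (mem_line.1 hd).symm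
      have : 0 < mult N' linePts x := by
        refine card_pos.2 ⟨l, mem_filter.2 ⟨mem_filter.2 ⟨hl, fun e => ?_⟩, hxl⟩⟩
        exact hf l.1 (by rw [← e]; exact (mem_line.1 hxl).symm)
      omega
  have hfree : (#(free b) : ℝ) + ∑ x ∈ free b, ((mult N' linePts x - 1 : ℕ) : ℝ) ≤
      (#N' : ℝ) * ((p : ℝ) * E + 2 * (R : ℝ) ^ 51) + K * p := by
    have h := (Nat.cast_le (α := ℝ)).2 (sum_le_sum hpoint)
    simp only [sum_add_distrib, Nat.cast_add, Nat.cast_sum, sum_const, smul_eq_mul, mul_one] at h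
    have h2 : ∑ x ∈ free b, ((if x ∈ S then 1 else 0 : ℕ) : ℝ) ≤ #S := by
      rw [← Nat.cast_sum, ← card_filter, filter_mem_eq_inter]
      exact Nat.cast_le.2 (card_le_card inter_subset_right)
    linarith
  set n : ℝ := (#N' : ℝ) with hn
  set Λ : ℝ := 4 * p * (R : ℝ) ^ 51 + (R : ℝ) ^ 151 + 2 * K * p with hΛdef
  have hn0 : 0 ≤ n := Nat.cast_nonneg _
  have hΛ0 : 0 ≤ Λ := by positivity
  have hΛ : ∑ x ∈ free b, ((mult N' linePts x - 1 : ℕ) : ℝ) ≤ Λ := by
    have h1 : n * ((p : ℝ) * E + 2 * (R : ℝ) ^ 51) ≤ ((p : ℝ) + K) * ((p : ℝ) * E + 2 * (R : ℝ) ^ 51) :=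
      mul_le_mul_of_nonneg_right (by linarith) (by positivity)
    have h2 := hG.total
    have h3 : (K : ℝ) * ((p : ℝ) * E) ≤ K * p := by
      gcongr
      exact mul_le_of_le_one_right hp0.le hE1
    have h4 : (K : ℝ) * (2 * (R : ℝ) ^ 51) ≤ p * (2 * (R : ℝ) ^ 51) := by gcongr
    linarith
  have hΛ' : Λ ≤ 12 * (R : ℝ) ^ 151 := by
    have h1 : (p : ℝ) * (R : ℝ) ^ 51 ≤ 2 * (R : ℝ) ^ 151 := by
      calc _ ≤ 2 * (R : ℝ) ^ 100 * (R : ℝ) ^ 51 := by gcongr
        _ = _ := by ring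
    have h2 : (K : ℝ) * p ≤ (R : ℝ) * (2 * (R : ℝ) ^ 100) := by
      apply mul_le_mul (by linarith) hPu hp0.le hr0.le
    have h3 : (R : ℝ) * (2 * (R : ℝ) ^ 100) ≤ (R : ℝ) ^ 151 := by
      have := hbig (show 101 < 151 by norm_num)
      rw [show (R : ℝ) * (2 * (R : ℝ) ^ 100) = 2 * (R : ℝ) ^ 101 by ring]
      linarith [pow_nonneg hr0.le 101]
    rw [hΛdef]
    linarith
  have hdef : ((p : ℝ) - n) * p ≤ 36 * (R : ℝ) ^ 151 := by
    have h1 : 0 ≤ ∑ x ∈ free b, ((mult N' linePts x - 1 : ℕ) : ℝ) :=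
      sum_nonneg fun x _ => Nat.cast_nonneg _
    have h2 := hG.total
    have h3 : ((p : ℝ) - n) * ((p : ℝ) * E) ≤ 12 * (R : ℝ) ^ 151 := by
      have h4 : n * (2 * (R : ℝ) ^ 51) ≤ (2 * p) * (2 * (R : ℝ) ^ 51) :=
        mul_le_mul_of_nonneg_right (by linarith) (by positivity)
      have h5 : (0 : ℝ) ≤ K * p := by positivity
      linarith [hΛ']
    rcases le_or_gt ((p : ℝ) - n) 0 with h | h
    · exact le_trans (mul_nonpos_of_nonpos_of_nonneg h hp0.le) (by positivity)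
    · have h6 : ((p : ℝ) - n) * p * (1 / 3) ≤ ((p : ℝ) - n) * p * E :=
        mul_le_mul_of_nonneg_left hE3 (by positivity)
      linarith
  exact ⟨hΛ.trans hΛ', hdef⟩

/-- The error terms. -/
theorem error_terms {P n r : ℝ} (hr : 1000000 ≤ r) (hPl : r ^ 100 ≤ P) (hPu : P ≤ 2 * r ^ 100)
    (hn0 : 0 ≤ n) (hn2 : n ≤ 2 * P) :
    n ^ 2 / r ^ 45 + 512 * (r ^ 48 * (12 * r ^ 151) + n ^ 3 / (r ^ 54 * r ^ 48)) +
      16 * n ^ 2 * (32 * (53248 * r ^ 21 * r ^ 28 + 26 * r ^ 28 * r ^ 14) + 32000 * r ^ 55) /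
        (r ^ 28) ^ 2 ≤ 200000000 * (P ^ 2 / r) := by
  have hr1 : (1 : ℝ) ≤ r := le_trans (by norm_num) hr
  have hr0 : (0 : ℝ) < r := by linarith
  have hP0 : 0 < P := lt_of_lt_of_le (pow_pos hr0 100) hPl
  have hmono : ∀ {i j : ℕ}, i ≤ j → r ^ i ≤ r ^ j := fun h => pow_le_pow_right₀ hr1 h
  have hrr : r ≤ r ^ 2 := by nlinarith
  have t1 : n ^ 2 / r ^ 45 ≤ 4 * (P ^ 2 / r) := by
    calc n ^ 2 / r ^ 45 ≤ (2 * P) ^ 2 / r ^ 1 :=
          div_le_div₀ (by positivity) (pow_le_pow_left₀ hn0 hn2 2) (by positivity)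
            (hmono (by norm_num))
      _ = _ := by rw [pow_one]; ring
  have t2 : r ^ 48 * (12 * r ^ 151) ≤ 12 * (P ^ 2 / r) := by
    rw [show r ^ 48 * (12 * r ^ 151) = 12 * r ^ 199 by ring]
    refine mul_le_mul_of_nonneg_left ?_ (by norm_num)
    rw [le_div_iff₀ hr0, ← pow_succ]
    calc r ^ (199 + 1) = (r ^ 100) ^ 2 := by ring
      _ ≤ _ := pow_le_pow_left₀ (by positivity) hPl 2
  have t3 : n ^ 3 / (r ^ 54 * r ^ 48) ≤ 16 * (P ^ 2 / r) := by
    calc n ^ 3 / (r ^ 54 * r ^ 48) ≤ (2 * P) ^ 2 * (2 * (2 * r ^ 100)) / (r ^ 54 * r ^ 48) := by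
          refine div_le_div_of_nonneg_right ?_ (by positivity)
          rw [pow_succ n 2]
          exact mul_le_mul (pow_le_pow_left₀ hn0 hn2 2) (by linarith) hn0 (by positivity)
      _ = 16 * (P ^ 2 / r ^ 2) := by field_simp; ring
      _ ≤ _ := mul_le_mul_of_nonneg_left (div_le_div_of_nonneg_left (by positivity) hr0 hrr)
          (by norm_num)
  have t4 : 16 * n ^ 2 * (32 * (53248 * r ^ 21 * r ^ 28 + 26 * r ^ 28 * r ^ 14) +
      32000 * r ^ 55) / (r ^ 28) ^ 2 ≤ 120000000 * (P ^ 2 / r) := by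
    have h1 : r ^ 21 * r ^ 28 ≤ r ^ 55 := by rw [← pow_add]; exact hmono (by norm_num)
    have h2 : r ^ 28 * r ^ 14 ≤ r ^ 55 := by rw [← pow_add]; exact hmono (by norm_num)
    calc _ ≤ 16 * (2 * P) ^ 2 * (1800000 * r ^ 55) / (r ^ 28) ^ 2 := by
          refine div_le_div_of_nonneg_right (mul_le_mul ?_ (by linarith [pow_nonneg hr0.le 55])
            (by positivity) (by positivity)) (by positivity)
          exact mul_le_mul_of_nonneg_left (pow_le_pow_left₀ hn0 hn2 2) (by norm_num)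
      _ = 115200000 * (P ^ 2 / r) := by field_simp; ring
      _ ≤ _ := by linarith [show 0 ≤ P ^ 2 / r by positivity]
  linarith [show 0 ≤ P ^ 2 / r by positivity]

/-- Thinning by one line per direction keeps covers efficient. -/
theorem exists_thinning (K : ℕ) (eps : ℝ) (he : 0 < eps) : ∃ R₀ : ℕ, ∀ R, R₀ ≤ R → ∀ p,
    ∀ _ : Fact p.Prime, R ^ 100 ≤ p → p ≤ 2 * R ^ 100 → ∀ o : ZMod p × ZMod p,
    ∃ b : Option (ZMod p) → ZMod p, (∀ d, o ∉ linePts (d, b d)) ∧
      ∀ N : Finset (PLine p), #N ≤ p + K → ∀ S : Finset (ZMod p × ZMod p), #S ≤ K * p →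
        (∀ x, x ∉ S → (∀ d, x ∉ linePts (d, b d)) → ∃ l ∈ N, x ∈ linePts l) →
        (excess N linePts : ℝ) ≤ eps * (p : ℝ) ^ 2 ∧
          (#(univ.filter fun x => mult N linePts x = 0) : ℝ) ≤ eps * (p : ℝ) ^ 2 := by
  obtain ⟨C₀, hC₀⟩ := exists_nat_gt ((1000000000 : ℝ) * (K + 1) / eps)
  refine ⟨max C₀ (max 1000000 (K + 1)), fun R hR p _ hpl hpu o => ?_⟩
  simp only [max_le_iff] at hR
  obtain ⟨hRC, hR6, hRK⟩ := hR
  have hr : (1000000 : ℝ) ≤ R := by exact_mod_cast hR6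
  have hr1 : (1 : ℝ) ≤ R := le_trans (by norm_num) hr
  have hr0 : (0 : ℝ) < R := by linarith
  have hKR : (K : ℝ) + 1 ≤ R := by exact_mod_cast hRK
  have hsmall : 1000000000 * ((K : ℝ) + 1) ≤ eps * R := by
    have h : (1000000000 : ℝ) * (K + 1) / eps ≤ R :=
      hC₀.le.trans (by exact_mod_cast hRC)
    rwa [div_le_iff₀ he, mul_comm (R : ℝ)] at h
  have hPl : (R : ℝ) ^ 100 ≤ p := by exact_mod_cast hpl
  have hPu : (p : ℝ) ≤ 2 * (R : ℝ) ^ 100 := by exact_mod_cast hpu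
  have hmono : ∀ {i j : ℕ}, i ≤ j → (R : ℝ) ^ i ≤ (R : ℝ) ^ j := fun h => pow_le_pow_right₀ hr1 h
  have hbig : ∀ {i j : ℕ}, i < j → (1000000 : ℝ) * (R : ℝ) ^ i ≤ (R : ℝ) ^ j := fun {i j} h => by
    refine le_trans ?_ (hmono h)
    rw [pow_succ, mul_comm]
    exact mul_le_mul_of_nonneg_left hr (pow_nonneg hr0.le _)
  have hp0 : (0 : ℝ) < p := by linarith [pow_pos hr0 100]
  obtain ⟨b, hb, hG⟩ := exists_choice o hR6 hpl hpu
  refine ⟨b, fun d hd => ?_, fun N hN S hS hcov => ?_⟩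
  · have := Fintype.mem_piFinset.1 hb d
    exact (mem_erase.1 this).1 (mem_line.1 hd).symm
  set N' := N.filter fun l => l.2 ≠ b l.1 with hN'
  have hN'N : (#N' : ℝ) ≤ #N := Nat.cast_le.2 (card_filter_le _ _)
  have hNp : (#N : ℝ) ≤ p + K := by exact_mod_cast hN
  have hKp : (K : ℝ) ≤ p := by
    have h := (hmono (show 1 ≤ 100 by norm_num)).trans hPl
    rw [pow_one] at h
    linarith
  obtain ⟨hΛ, hdef⟩ := free_bounds hR6 hRK hpl hpu hG hN hS hcov
  rw [← hN'] at hΛ hdef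
  set n : ℝ := (#N' : ℝ) with hn
  have hn0 : 0 ≤ n := Nat.cast_nonneg _
  have h151 : (R : ℝ) ^ 151 ≤ (p : ℝ) ^ 2 / R := by
    rw [le_div_iff₀ hr0, ← pow_succ]
    calc (R : ℝ) ^ 152 ≤ (R : ℝ) ^ 200 := hmono (by norm_num)
      _ = ((R : ℝ) ^ 100) ^ 2 := by ring
      _ ≤ _ := pow_le_pow_left₀ (by positivity) hPl 2
  have hp2R : (p : ℝ) ^ 2 / R ≤ (p : ℝ) ^ 2 / 1000000 :=
    div_le_div_of_nonneg_left (by positivity) (by norm_num) hr
  have hnhalf : (p : ℝ) / 2 ≤ n := by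
    by_contra hc
    have h := mul_le_mul_of_nonneg_right (show (p : ℝ) / 2 ≤ p - n by linarith) hp0.le
    nlinarith
  have hn2 : n ≤ 2 * p := by linarith
  have hnpos : 0 < #N' := by
    have : (0 : ℝ) < n := by linarith
    rw [hn] at this
    exact_mod_cast this
  have hmain := excess_le hG N' (fun l hl => (mem_filter.1 hl).2)
    (le_trans (by omega) (Nat.le_self_pow (by norm_num) R))
    (Nat.one_le_pow _ _ (by omega)) hnpos (D := (R : ℝ) ^ 45) (D' := (R : ℝ) ^ 48)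
    (one_le_pow₀ hr1) (by positivity)
    (by
      rw [Nat.cast_pow, ← pow_add]
      have := hbig (show 28 + 45 < 100 by norm_num)
      linarith [pow_nonneg hr0.le (28 + 45)])
    (by
      rw [Nat.cast_pow, ← pow_add]
      have := hbig (show 54 + 45 < 100 by norm_num)
      linarith [pow_nonneg hr0.le (54 + 45)])
    hΛ
  have hpR : (0 : ℝ) ≤ (p : ℝ) ^ 2 / R := by positivity
  simp only [Nat.cast_pow] at hmain
  have hN'exc : (excess N' linePts : ℝ) ≤ 200000000 * ((p : ℝ) ^ 2 / R) :=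
    hmain.trans (error_terms hr hPl hPu hn0 hn2)
  have hcardp : ∀ M : Finset (PLine p), (excess M linePts : ℝ) +
      #(univ.filter fun x => mult M linePts x ≠ 0) = #M * p := fun M => by
    exact_mod_cast excess_add_covered (S := M) (pts := linePts) (q := p) fun l _ => card_linePts l
  have hsub : (#(univ.filter fun x => mult N' linePts x ≠ 0) : ℝ) ≤
      #(univ.filter fun x => mult N linePts x ≠ 0) := by
    refine Nat.cast_le.2 (card_le_card fun x hx => ?_)
    obtain ⟨l, hl⟩ := card_pos.1 (Nat.pos_of_ne_zero (mem_filter.1 hx).2)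
    exact mem_filter.2 ⟨mem_univ _, (card_pos.2
      ⟨l, mem_filter.2 ⟨(mem_filter.1 (mem_filter.1 hl).1).1, (mem_filter.1 hl).2⟩⟩).ne'⟩
  have hKpp : (K : ℝ) * p ≤ (p : ℝ) ^ 2 / R := by
    rw [le_div_iff₀ hr0, pow_two]
    have h1 : (K : ℝ) * R ≤ p := by
      calc (K : ℝ) * R ≤ (R : ℝ) * R := by gcongr; linarith
        _ = (R : ℝ) ^ 2 := (pow_two _).symm
        _ ≤ p := (hmono (by norm_num)).trans hPl
    calc (K : ℝ) * p * R = (K : ℝ) * R * p := by ring
      _ ≤ _ := mul_le_mul_of_nonneg_right h1 hp0.le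
  have hfinal : 300000000 * ((p : ℝ) ^ 2 / R) ≤ eps * (p : ℝ) ^ 2 := by
    rw [← mul_div_assoc, div_le_iff₀ hr0]
    have h : (300000000 : ℝ) ≤ eps * R := by linarith [(Nat.cast_nonneg K : (0 : ℝ) ≤ _)]
    calc 300000000 * (p : ℝ) ^ 2 ≤ eps * R * (p : ℝ) ^ 2 :=
          mul_le_mul_of_nonneg_right h (sq_nonneg _)
      _ = _ := by ring
  have eN := hcardp N
  have eN' := hcardp N'
  rw [← hn] at eN'
  have hNn : (#N : ℝ) * p ≤ ((p : ℝ) + K) * p := mul_le_mul_of_nonneg_right hNp hp0.le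
  refine ⟨by linarith, ?_⟩
  have hsplit := congrArg (fun j : ℕ => (j : ℝ)) (card_filter_add_card_filter_not
    (s := (univ : Finset (ZMod p × ZMod p))) (fun x => mult N linePts x = 0))
  simp only [Nat.cast_add, card_univ, Fintype.card_prod, ZMod.card, Nat.cast_mul] at hsplit
  linarith

end Vale.Agent.P045.Thin
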