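import Vale.Agent.P045.Thin.Random

/-!
# P045: a good choice of one line per direction

Existence of a choice with all the tail events avoided, and the consequence that the double hits
on the sampled intersection points are negligible.
-/

open Finset
open scoped Classical

namespace Vale.Agent.P045.Thin

variable {p : ℕ} [Fact p.Prime]

theorem card_fix {s k : ℕ} (I : Finset (Fin k)) (a : Fin k → Fin s) :
    #((univ : Finset (Fin k → Fin s)).filter fun u => ∀ j ∈ I, u j = a j) * s ^ #I = s ^ k := by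
  have e : ((univ : Finset (Fin k → Fin s)).filter fun u => ∀ j ∈ I, u j = a j) =
      Fintype.piFinset fun j => if j ∈ I then {a j} else univ := by
    ext u
    simp only [mem_filter, mem_univ, true_and, Fintype.mem_piFinset]
    refine ⟨fun h j => ?_, fun h j hj => by simpa [hj] using h j⟩
    split_ifs with hj
    · simpa using h j hj
    · exact mem_univ _
  rw [e, Fintype.card_piFinset]
  have e2 : ∀ j, #(if j ∈ I then ({a j} : Finset (Fin s)) else univ) =
      if j ∈ I then 1 else s := fun j => by split_ifs <;> simp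
  simp only [e2, prod_ite, prod_const_one, one_mul, prod_const, ← pow_add]
  congr 1
  have := card_filter_add_card_filter_not (s := (univ : Finset (Fin k))) (fun j => j ∈ I)
  simp only [card_univ, Fintype.card_fin, filter_mem_eq_inter, univ_inter] at this
  omega

theorem hit_ge {s k : ℕ} (hs : 0 < s) (hks : k ≤ s) (a : Fin s) :
    (s : ℝ) ^ k * k / (2 * s) ≤ #((univ : Finset (Fin k → Fin s)).filter fun u => ∃ i, u i = a) := by
  have hs' : (1 : ℝ) ≤ s := by exact_mod_cast hs
  have hks' : (k : ℝ) ≤ s := by exact_mod_cast hks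
  have hmiss : #((univ : Finset (Fin k → Fin s)).filter fun u => ¬∃ i, u i = a) = (s - 1) ^ k := by
    have e : ((univ : Finset (Fin k → Fin s)).filter fun u => ¬∃ i, u i = a) =
        Fintype.piFinset fun _ => univ.erase a := by
      ext u; simp [Fintype.mem_piFinset]
    rw [e, Fintype.card_piFinset_const, card_erase_of_mem (mem_univ _), card_univ, Fintype.card_fin]
  have h := congrArg (fun n : ℕ => (n : ℝ)) (card_filter_add_card_filter_not
    (s := (univ : Finset (Fin k → Fin s))) (fun u => ∃ i, u i = a))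
  simp only [Nat.cast_add, hmiss, card_univ, Fintype.card_fun, Fintype.card_fin, Nat.cast_pow,
    Nat.cast_sub hs, Nat.cast_one] at h
  have h1 : ((s : ℝ) - 1) ^ k * (1 + k / s) ≤ (s : ℝ) ^ k := by
    calc ((s : ℝ) - 1) ^ k * (1 + k / s) ≤ ((s : ℝ) - 1) ^ k * (1 + 1 / s) ^ k := by
          refine mul_le_mul_of_nonneg_left ?_ (pow_nonneg (by linarith) _)
          have hb := one_add_mul_le_pow (a := (1 / s : ℝ))
            (le_trans (by norm_num) (by positivity : (0 : ℝ) ≤ 1 / s)) k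
          simpa [div_eq_mul_inv] using hb
      _ = ((s : ℝ) - 1 / s) ^ k := by
          rw [← mul_pow]; congr 1; field_simp; ring
      _ ≤ _ := pow_le_pow_left₀
          (by linarith [div_le_self zero_le_one hs']) (by linarith [show (0 : ℝ) ≤ 1 / s by positivity]) _
  have h2 : ((s : ℝ) - 1) ^ k ≤ (s : ℝ) ^ k * (1 - k / (2 * s)) := by
    refine le_of_mul_le_mul_right (h1.trans ?_) (by positivity : (0 : ℝ) < 1 + k / s)
    rw [mul_assoc]
    refine le_mul_of_one_le_right (by positivity) ?_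
    have hx0 : (0 : ℝ) ≤ k / s := by positivity
    have hx1 : (k : ℝ) / s ≤ 1 := (div_le_one (by linarith)).2 hks'
    rw [show (k : ℝ) / (2 * s) = k / s / 2 by ring]
    nlinarith
  rw [mul_sub, mul_one, ← mul_div_assoc] at h2
  linarith

/-- Samples of size `k` from two halves catch one of `H` designated pairs with probability
at least `1 / 32`. -/
theorem catch_ge {s k H : ℕ} {ι : Type*} (hs : 0 < s) (hks : k ≤ s) (hμ : H * k ^ 2 = s ^ 2)
    (X : Finset ι) (hX : #X = H) (ia ib : ι → Fin s) (ha : Set.InjOn ia X) (hb : Set.InjOn ib X) :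
    (s : ℝ) ^ (2 * k) / 32 ≤ #((univ : Finset ((Fin k → Fin s) × (Fin k → Fin s))).filter
      fun w => ∃ x ∈ X, (∃ i, w.1 i = ia x) ∧ ∃ i, w.2 i = ib x) := by
  have hs' : (0 : ℝ) < s := by exact_mod_cast hs
  set c1 : Fin s → Finset (Fin k → Fin s) := fun a => univ.filter fun u => ∃ i, u i = a with hc1
  set N : (Fin k → Fin s) × (Fin k → Fin s) → ℝ := fun w =>
    #(X.filter fun x => w.1 ∈ c1 (ia x) ∧ w.2 ∈ c1 (ib x)) with hN
  have hμ' : (H : ℝ) * (k : ℝ) ^ 2 = (s : ℝ) ^ 2 := by exact_mod_cast hμ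
  have hpp : (s : ℝ) ^ (2 * k) = (s : ℝ) ^ k * (s : ℝ) ^ k := by rw [← pow_add, two_mul]
  have hsum : ∑ w, N w = ∑ x ∈ X, (#(c1 (ia x)) : ℝ) * #(c1 (ib x)) := by
    simp only [hN, card_filter, Nat.cast_sum]
    rw [sum_comm]
    refine sum_congr rfl fun x _ => ?_
    rw [← Nat.cast_sum, ← card_filter, ← Nat.cast_mul, ← card_product]
    congr 2
    ext w; simp
  have hlow : (s : ℝ) ^ (2 * k) / 4 ≤ ∑ w, N w := by
    rw [hsum]
    calc (s : ℝ) ^ (2 * k) / 4 = ∑ _x ∈ X, ((s : ℝ) ^ k * k / (2 * s)) * ((s : ℝ) ^ k * k / (2 * s)) := by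
          rw [sum_const, nsmul_eq_mul, hX, hpp]
          field_simp
          linear_combination -4 * hμ'
      _ ≤ _ := sum_le_sum fun x _ => mul_le_mul (hit_ge hs hks _) (hit_ge hs hks _)
          (by positivity) (Nat.cast_nonneg _)
  have hhit : ∀ a, (#(c1 a) : ℝ) ≤ k * ((s : ℝ) ^ k / s) := by
    intro a
    have h : #(c1 a) * s ≤ k * s ^ k := by
      calc #(c1 a) * s ≤ #((univ : Finset (Fin k)).biUnion fun i =>
            univ.filter fun u : Fin k → Fin s => ∀ j ∈ ({i} : Finset (Fin k)), u j = a) * s := by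
            refine Nat.mul_le_mul_right _ (card_le_card fun u hu => ?_)
            obtain ⟨i, hi⟩ := (mem_filter.1 hu).2
            exact mem_biUnion.2 ⟨i, mem_univ _, mem_filter.2 ⟨mem_univ _, by simpa using hi⟩⟩
        _ ≤ (∑ i : Fin k, #(univ.filter fun u : Fin k → Fin s =>
            ∀ j ∈ ({i} : Finset (Fin k)), u j = a)) * s := Nat.mul_le_mul_right _ card_biUnion_le
        _ = ∑ _i : Fin k, s ^ k := by
            rw [sum_mul]
            exact sum_congr rfl fun i _ => by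
              simpa using card_fix ({i} : Finset (Fin k)) (fun _ => a)
        _ = k * s ^ k := by simp
    rw [← mul_div_assoc, le_div_iff₀ hs']
    exact_mod_cast h
  have hhit2 : ∀ a a', a ≠ a' →
      (#(c1 a ∩ c1 a') : ℝ) ≤ (k : ℝ) ^ 2 * ((s : ℝ) ^ k / (s : ℝ) ^ 2) := by
    intro a a' hne
    have h : #(c1 a ∩ c1 a') * s ^ 2 ≤ k ^ 2 * s ^ k := by
      calc #(c1 a ∩ c1 a') * s ^ 2
          ≤ #((univ : Finset (Fin k)).offDiag.biUnion fun q => univ.filter fun u : Fin k → Fin s =>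
            ∀ j ∈ ({q.1, q.2} : Finset (Fin k)), u j = if j = q.1 then a else a') * s ^ 2 := by
            refine Nat.mul_le_mul_right _ (card_le_card fun u hu => ?_)
            obtain ⟨h1, h2⟩ := mem_inter.1 hu
            obtain ⟨i, hi⟩ := (mem_filter.1 h1).2
            obtain ⟨i', hi'⟩ := (mem_filter.1 h2).2
            have hii : i ≠ i' := fun e => hne (by rw [← hi, ← hi', e])
            refine mem_biUnion.2 ⟨(i, i'), mem_offDiag.2 ⟨mem_univ _, mem_univ _, hii⟩,
              mem_filter.2 ⟨mem_univ _, fun j hj => ?_⟩⟩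
            simp only [mem_insert, mem_singleton] at hj
            rcases hj with rfl | rfl
            · simp [hi]
            · simp [hi', Ne.symm hii]
        _ ≤ (∑ q ∈ (univ : Finset (Fin k)).offDiag, #(univ.filter fun u : Fin k → Fin s =>
            ∀ j ∈ ({q.1, q.2} : Finset (Fin k)), u j = if j = q.1 then a else a')) * s ^ 2 :=
            Nat.mul_le_mul_right _ card_biUnion_le
        _ = ∑ _q ∈ (univ : Finset (Fin k)).offDiag, s ^ k := by
            rw [sum_mul]
            refine sum_congr rfl fun q hq => ?_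
            conv_lhs => rw [← card_pair (mem_offDiag.1 hq).2.2]
            exact card_fix _ _
        _ ≤ k ^ 2 * s ^ k := by
            rw [sum_const, smul_eq_mul]
            refine Nat.mul_le_mul_right _ ?_
            rw [offDiag_card, card_univ, Fintype.card_fin, pow_two]
            exact Nat.sub_le _ _
    rw [← mul_div_assoc, le_div_iff₀ (by positivity)]
    exact_mod_cast h
  have hup : ∑ w, N w ^ 2 ≤ 2 * (s : ℝ) ^ (2 * k) := by
    have e : ∑ w, N w ^ 2 = ∑ x ∈ X, ∑ y ∈ X,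
        (#(c1 (ia x) ∩ c1 (ia y)) : ℝ) * #(c1 (ib x) ∩ c1 (ib y)) := by
      have e1 : ∀ w, N w ^ 2 = ∑ x ∈ X, ∑ y ∈ X, (if (w.1 ∈ c1 (ia x) ∧ w.2 ∈ c1 (ib x)) ∧
          (w.1 ∈ c1 (ia y) ∧ w.2 ∈ c1 (ib y)) then (1 : ℝ) else 0) := fun w => by
        simp only [hN, pow_two, ← sum_boole, sum_mul, mul_sum, ite_zero_mul_ite_zero, one_mul]
        exact sum_congr rfl fun x _ => sum_congr rfl fun y _ => if_congr and_comm rfl rfl
      simp only [e1]
      rw [sum_comm]
      refine sum_congr rfl fun x _ => ?_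
      rw [sum_comm]
      refine sum_congr rfl fun y _ => ?_
      rw [sum_boole, ← Nat.cast_mul, ← card_product]
      congr 2
      ext w
      simp only [mem_filter, mem_univ, true_and, mem_product, mem_inter]
      tauto
    rw [e]
    set A1 := (k : ℝ) * ((s : ℝ) ^ k / s)
    set A2 := (k : ℝ) ^ 2 * ((s : ℝ) ^ k / (s : ℝ) ^ 2)
    calc ∑ x ∈ X, ∑ y ∈ X, (#(c1 (ia x) ∩ c1 (ia y)) : ℝ) * #(c1 (ib x) ∩ c1 (ib y))
        ≤ ∑ x ∈ X, ∑ y ∈ X, ((if x = y then A1 * A1 else 0) + A2 * A2) := by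
          refine sum_le_sum fun x hx => sum_le_sum fun y hy => ?_
          by_cases hxy : x = y
          · subst hxy
            rw [if_pos rfl, inter_self, inter_self]
            exact le_trans (mul_le_mul (hhit _) (hhit _) (Nat.cast_nonneg _) (by positivity))
              (le_add_of_nonneg_right (mul_self_nonneg _))
          · rw [if_neg hxy, zero_add]
            exact mul_le_mul (hhit2 _ _ fun h => hxy (ha hx hy h))
              (hhit2 _ _ fun h => hxy (hb hx hy h)) (Nat.cast_nonneg _) (by positivity)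
      _ = H * (A1 * A1) + H * H * (A2 * A2) := by
          simp only [sum_add_distrib, sum_ite_eq, sum_const, nsmul_eq_mul]
          rw [sum_congr rfl fun x hx => if_pos hx, sum_const, nsmul_eq_mul, hX]
          ring
      _ = (H * (k : ℝ) ^ 2) / (s : ℝ) ^ 2 * ((s : ℝ) ^ k * (s : ℝ) ^ k) +
          ((H * (k : ℝ) ^ 2) / (s : ℝ) ^ 2) ^ 2 * ((s : ℝ) ^ k * (s : ℝ) ^ k) := by
          simp only [A1, A2]; field_simp
      _ = _ := by rw [hμ', div_self (by positivity), hpp]; ring
  set pos := (univ : Finset ((Fin k → Fin s) × (Fin k → Fin s))).filter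
      fun w => ∃ x ∈ X, (∃ i, w.1 i = ia x) ∧ ∃ i, w.2 i = ib x
  have hsupp : ∑ w, N w = ∑ w ∈ pos, N w := by
    refine (sum_subset (subset_univ _) fun w _ hw => ?_).symm
    simp only [hN, Nat.cast_eq_zero, card_eq_zero, filter_eq_empty_iff]
    intro x hx hh
    refine hw (mem_filter.2 ⟨mem_univ _, x, hx, ?_⟩)
    exact ⟨(mem_filter.1 hh.1).2, (mem_filter.1 hh.2).2⟩
  have hcs : (∑ w ∈ pos, N w) ^ 2 ≤ #(pos) * ∑ w, N w ^ 2 :=
    sq_sum_le_card_mul_sum_sq.trans (mul_le_mul_of_nonneg_left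
      (sum_le_sum_of_subset_of_nonneg (subset_univ _) fun w _ _ => sq_nonneg _) (Nat.cast_nonneg _))
  have hP : (0 : ℝ) < (s : ℝ) ^ (2 * k) := by positivity
  have h1 : ((s : ℝ) ^ (2 * k) / 4) ^ 2 ≤ (∑ w ∈ pos, N w) ^ 2 :=
    pow_le_pow_left₀ (by positivity) (hsupp ▸ hlow) 2
  have h2 := mul_le_mul_of_nonneg_left hup (Nat.cast_nonneg #(pos) : (0 : ℝ) ≤ _)
  refine le_of_mul_le_mul_right ?_ hP
  nlinarith

/-- The double hits on the intersection points of a sample are negligible. -/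
theorem multi_hits_le {b : Option (ZMod p) → ZMod p} {s k H : ℕ} (hs : 0 < s) (hks : 4 * k ≤ s)
    (hμ : H * k ^ 2 = s ^ 2) (hM : ∀ A : Finset (PLine p), #A ≤ s → #(multiDir A b) ≤ 13 * #A)
    (g : Fin s → PLine p) (hg : ∀ i, (g i).2 ≠ b (g i).1) :
    (∑ d ∈ multiDir (univ.image g) b,
      (#((dbl (univ.image g)).filter fun x => bOf d x = b d) : ℝ)) ≤
      53248 * k * s + 26 * s * H := by
  set A := univ.image g with hA
  set fib : Option (ZMod p) → Finset (ZMod p × ZMod p) :=
    fun d => (dbl A).filter fun x => bOf d x = b d with hfib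
  have hAs : #A ≤ s := card_image_le.trans (by simp)
  -- two lines through each point
  have hexi : ∀ x ∈ dbl A, ∃ i j, g i ≠ g j ∧ x ∈ linePts (g i) ∧ x ∈ linePts (g j) := by
    intro x hx
    obtain ⟨l, hl, l', hl', hne⟩ := one_lt_card.1 (mem_filter.1 hx).2
    obtain ⟨hlA, hxl⟩ := mem_filter.1 hl
    obtain ⟨hlA', hxl'⟩ := mem_filter.1 hl'
    obtain ⟨i, -, rfl⟩ := mem_image.1 hlA
    obtain ⟨j, -, rfl⟩ := mem_image.1 hlA'
    exact ⟨i, j, hne, hxl, hxl'⟩
  have huniq : ∀ d i, ∀ x ∈ fib d, ∀ y ∈ fib d, x ∈ linePts (g i) → y ∈ linePts (g i) → x = y := by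
    intro d i x hx y hy hxi hyi
    have hne : (d, b d) ≠ g i := fun e => hg i (by rw [← e])
    exact card_le_one.1 (linePts_meet_le _ _ hne) x
      (mem_inter.2 ⟨mem_line.2 (mem_filter.1 hx).2, hxi⟩) y
      (mem_inter.2 ⟨mem_line.2 (mem_filter.1 hy).2, hyi⟩)
  set ia : ZMod p × ZMod p → Fin s := fun x =>
    if h : x ∈ dbl A then (hexi x h).choose else ⟨0, hs⟩ with hia
  set ib : ZMod p × ZMod p → Fin s := fun x =>
    if h : x ∈ dbl A then (hexi x h).choose_spec.choose else ⟨0, hs⟩ with hib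
  have hspec : ∀ x ∈ dbl A, g (ia x) ≠ g (ib x) ∧
      x ∈ linePts (g (ia x)) ∧ x ∈ linePts (g (ib x)) := by
    intro x hx
    simp only [hia, hib, dif_pos hx]
    exact (hexi x hx).choose_spec.choose_spec
  have hinja : ∀ d, Set.InjOn ia (fib d) := fun d x hx y hy h =>
    huniq d (ia x) x hx y hy (hspec x (mem_filter.1 hx).1).2.1
      (h ▸ (hspec y (mem_filter.1 hy).1).2.1)
  have hinjb : ∀ d, Set.InjOn ib (fib d) := fun d x hx y hy h =>
    huniq d (ib x) x hx y hy (hspec x (mem_filter.1 hx).1).2.2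
      (h ▸ (hspec y (mem_filter.1 hy).1).2.2)
  have hfs : ∀ d, #(fib d) ≤ s := fun d =>
    (card_le_card_of_injOn ia (fun x _ => mem_univ _) (hinja d)).trans_eq (by simp)
  set D := multiDir A b with hD
  set rich := D.filter fun d => 2 * H ≤ #(fib d) with hrich
  -- rich lines are few
  have hrich' : (#(rich) : ℝ) ≤ 53248 * k := by
    set W := (Fin k → Fin s) × (Fin k → Fin s)
    set A' : W × W → Finset (PLine p) := fun w =>
      (univ.image fun i => g (w.1.1 i)) ∪ (univ.image fun i => g (w.1.2 i)) ∪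
        ((univ.image fun i => g (w.2.1 i)) ∪ univ.image fun i => g (w.2.2 i)) with hA'
    have hsmall : ∀ w, #(multiDir (A' w) b) ≤ 52 * k := by
      intro w
      have h4 : #(A' w) ≤ 4 * k := by
        refine (card_union_le _ _).trans ((Nat.add_le_add (card_union_le _ _)
          (card_union_le _ _)).trans ?_)
        have hk4 : ∀ f : Fin k → Fin s, #(univ.image fun i => g (f i)) ≤ k := fun f =>
          card_image_le.trans (by simp)
        have := hk4 w.1.1; have := hk4 w.1.2; have := hk4 w.2.1; have := hk4 w.2.2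
        omega
      exact (hM _ (h4.trans hks)).trans (by omega)
    have hcatch : ∀ d ∈ rich, ((s : ℝ) ^ (2 * k) / 32) * ((s : ℝ) ^ (2 * k) / 32) ≤
        #((univ : Finset (W × W)).filter fun w => d ∈ multiDir (A' w) b) := by
      intro d hd
      obtain ⟨X1, hX1, hc1⟩ := exists_subset_card_eq
        (show H ≤ #(fib d) by have := (mem_filter.1 hd).2; omega)
      obtain ⟨X2, hX2, hc2⟩ := exists_subset_card_eq (show H ≤ #(fib d \ X1) by
        rw [card_sdiff_of_subset hX1]; have := (mem_filter.1 hd).2; omega)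
      have hX2' : X2 ⊆ fib d := hX2.trans sdiff_subset
      have e1 := catch_ge hs (by omega) hμ X1 hc1 ia ib ((hinja d).mono (coe_subset.2 hX1))
        ((hinjb d).mono (coe_subset.2 hX1))
      have e2 := catch_ge hs (by omega) hμ X2 hc2 ia ib ((hinja d).mono (coe_subset.2 hX2'))
        ((hinjb d).mono (coe_subset.2 hX2'))
      refine le_trans (mul_le_mul e1 e2 (by positivity) (Nat.cast_nonneg _)) ?_
      rw [← Nat.cast_mul, ← card_product]
      refine Nat.cast_le.2 (card_le_card fun w hw => ?_)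
      obtain ⟨h1, h2⟩ := mem_product.1 hw
      obtain ⟨x, hx, ⟨i, hi⟩, i', hi'⟩ := (mem_filter.1 h1).2
      obtain ⟨y, hy, ⟨j, hj⟩, j', hj'⟩ := (mem_filter.1 h2).2
      have hdb : ∀ z ∈ fib d, g (ia z) ∈ A' w → g (ib z) ∈ A' w → z ∈ dbl (A' w) := by
        intro z hz ha hb
        obtain ⟨hne, h3, h4⟩ := hspec z (mem_filter.1 hz).1
        exact mem_filter.2 ⟨mem_univ _, one_lt_card.2 ⟨_, mem_filter.2 ⟨ha, h3⟩, _,
          mem_filter.2 ⟨hb, h4⟩, hne⟩⟩
      refine mem_filter.2 ⟨mem_univ _, mem_filter.2 ⟨mem_univ _, one_lt_card.2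
        ⟨x, mem_filter.2 ⟨hdb x (hX1 hx) ?_ ?_, (mem_filter.1 (hX1 hx)).2⟩,
         y, mem_filter.2 ⟨hdb y (hX2' hy) ?_ ?_, (mem_filter.1 (hX2' hy)).2⟩,
         fun e => (mem_sdiff.1 (hX2 hy)).2 (e ▸ hx)⟩⟩⟩
      · exact mem_union_left _ (mem_union_left _ (mem_image.2 ⟨i, mem_univ _, by rw [hi]⟩))
      · exact mem_union_left _ (mem_union_right _ (mem_image.2 ⟨i', mem_univ _, by rw [hi']⟩))
      · exact mem_union_right _ (mem_union_left _ (mem_image.2 ⟨j, mem_univ _, by rw [hj]⟩))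
      · exact mem_union_right _ (mem_union_right _ (mem_image.2 ⟨j', mem_univ _, by rw [hj']⟩))
    have htot : (#(rich) : ℝ) * (((s : ℝ) ^ (2 * k) / 32) * ((s : ℝ) ^ (2 * k) / 32)) ≤
        52 * k * ((s : ℝ) ^ (2 * k) * (s : ℝ) ^ (2 * k)) := by
      calc (#(rich) : ℝ) * _ ≤ ∑ d ∈ rich,
            (#((univ : Finset (W × W)).filter fun w => d ∈ multiDir (A' w) b) : ℝ) := by
            rw [← nsmul_eq_mul, ← sum_const]; exact sum_le_sum hcatch
        _ = ∑ w : W × W, (#(rich.filter fun d => d ∈ multiDir (A' w) b) : ℝ) := by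
            simp only [card_filter, Nat.cast_sum]; exact sum_comm
        _ ≤ ∑ _w : W × W, (52 * k : ℝ) := by
            refine sum_le_sum fun w _ => ?_
            have h := (card_le_card (show rich.filter (fun d => d ∈ multiDir (A' w) b) ⊆
              multiDir (A' w) b from fun d hd => (mem_filter.1 hd).2)).trans (hsmall w)
            exact_mod_cast h
        _ = _ := by
            rw [sum_const, nsmul_eq_mul, card_univ]
            simp only [W, Fintype.card_prod, Fintype.card_fun, Fintype.card_fin]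
            push_cast; ring
    have hP : (0 : ℝ) < (s : ℝ) ^ (2 * k) * (s : ℝ) ^ (2 * k) := by
      have : (0 : ℝ) < s := by exact_mod_cast hs
      positivity
    refine le_of_mul_le_mul_right ?_ hP
    linarith
  have hDs : #D ≤ 13 * s := (hM A hAs).trans (Nat.mul_le_mul_left _ hAs)
  calc ∑ d ∈ D, (#(fib d) : ℝ)
      ≤ ∑ d ∈ D, ((if d ∈ rich then (s : ℝ) else 0) + 2 * H) := by
        refine sum_le_sum fun d hd => ?_
        by_cases h : d ∈ rich
        · rw [if_pos h]
          have := hfs d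
          exact le_trans (Nat.cast_le.2 this) (le_add_of_nonneg_right (by positivity))
        · rw [if_neg h, zero_add]
          have : #(fib d) ≤ 2 * H := (not_le.1 fun h' => h (mem_filter.2 ⟨hd, h'⟩)).le
          exact_mod_cast this
    _ = #(rich) * (s : ℝ) + #D * (2 * H) := by
        rw [sum_add_distrib, sum_ite_mem, inter_eq_right.2 (filter_subset _ _), sum_const,
          nsmul_eq_mul, sum_const, nsmul_eq_mul]
    _ ≤ _ := by
        have h1 := mul_le_mul_of_nonneg_right hrich' (Nat.cast_nonneg s : (0 : ℝ) ≤ _)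
        have h2 := mul_le_mul_of_nonneg_right ((Nat.cast_le (α := ℝ)).2 hDs)
          (show (0 : ℝ) ≤ 2 * H by positivity)
        push_cast at h2
        linarith

/-- The sampled points: on two lines of `g` and on no line of `h`. -/
noncomputable def samplePts {s t : ℕ} (g : Fin s → PLine p) (h : Fin t → PLine p) :
    Finset (ZMod p × ZMod p) :=
  (dbl (univ.image g)).filter fun x => ∀ i, x ∉ linePts (h i)

/-- The properties of the chosen lines. -/
structure Good (b : Option (ZMod p) → ZMod p) (s t k H : ℕ) (T W η : ℝ) : Prop where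
  line : ∀ l, (#(linePts l ∩ free b) : ℝ) ≤ (p : ℝ) * Real.exp (-1) + 2 * T
  total : (p : ℝ) ^ 2 * Real.exp (-1) - W ≤ #(free b)
  keep : ∀ (g : Fin s → PLine p), (∀ i, (g i).2 ≠ b (g i).1) → ∀ h : Fin t → PLine p,
    (#(samplePts g h) : ℝ) ≤
      32 * #(samplePts g h ∩ free b) + 32 * (53248 * k * s + 26 * s * H) + η

theorem card_pline : #(univ : Finset (PLine p)) = (p + 1) * p := by
  rw [card_univ, Fintype.card_prod, Fintype.card_option, ZMod.card]

/-- Some choice avoids all the bad events. -/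
theorem exists_good (o : ZMod p × ZMod p) (hp : 19 ≤ p) {s t k H : ℕ} {T W η lam : ℝ}
    (hs : 0 < s) (hks : 4 * k ≤ s) (hμ : H * k ^ 2 = s ^ 2) (hT1 : 1 ≤ T) (hTp : T ≤ p)
    (hW : 0 < W) (hlam : 1 ≤ lam)
    (h1 : 2 * (p : ℝ) ^ 2 * Real.exp (-(T ^ 2 / (8 * p))) ≤ 1 / 8)
    (h2 : 25 * (p : ℝ) ^ 3 ≤ W ^ 2 / 8)
    (h3 : 4 * (p : ℝ) ^ 2 * (Real.exp (lam * (s : ℝ) ^ 3 / ((p : ℝ) - 1)) / lam ^ 13) ≤ 1 / 8)
    (h4 : (2 * (p : ℝ) ^ 2) ^ (s + t) * Real.exp (-(η / 32)) ≤ 1 / 8) :
    ∃ b ∈ choices o, Good b s t k H T W η := by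
  set Ω := choices o with hΩ
  have hp' : (19 : ℝ) ≤ p := by exact_mod_cast hp
  have hΩpos : (0 : ℝ) < #Ω := by
    rw [hΩ, card_choices, Nat.cast_pow, cast_p_sub_one]
    exact pow_pos (by linarith) _
  have hL : (#(univ : Finset (PLine p)) : ℝ) ≤ 2 * (p : ℝ) ^ 2 := by
    rw [card_pline]; push_cast; nlinarith
  set B1 := (univ : Finset (PLine p)).biUnion fun l =>
    Ω.filter fun b => (p : ℝ) * Real.exp (-1) + 2 * T < #(linePts l ∩ free b) with hB1
  set B2 := Ω.filter fun b => (#(free b) : ℝ) < (p : ℝ) ^ 2 * Real.exp (-1) - W with hB2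
  set As := (univ : Finset (PLine p)).powerset.filter fun A => A ≠ ∅ ∧ #A ≤ s with hAs
  set B3 := As.biUnion fun A => Ω.filter fun b => 13 * #A < #(multiDir A b) with hB3
  set GH := (univ : Finset ((Fin s → PLine p) × (Fin t → PLine p))).filter
    fun w => η ≤ #(samplePts w.1 w.2) with hGH
  set B4 := GH.biUnion fun w => Ω.filter fun b =>
    32 * #(left b (univ : Finset (Option (ZMod p))).toList (samplePts w.1 w.2)) <
      #(samplePts w.1 w.2) with hB4
  have c1 : (#B1 : ℝ) ≤ #Ω / 8 := by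
    refine ((Nat.cast_le.2 card_biUnion_le).trans (le_of_eq (Nat.cast_sum _ _))).trans ?_
    refine (sum_le_sum fun l _ => line_tail o l hT1 hTp).trans ?_
    rw [sum_const, nsmul_eq_mul]
    calc _ ≤ 2 * (p : ℝ) ^ 2 * (#Ω * Real.exp (-(T ^ 2 / (8 * p)))) :=
          mul_le_mul_of_nonneg_right hL (by positivity)
      _ = (#Ω : ℝ) * (2 * (p : ℝ) ^ 2 * Real.exp (-(T ^ 2 / (8 * p)))) := by ring
      _ ≤ (#Ω : ℝ) * (1 / 8) := mul_le_mul_of_nonneg_left h1 (Nat.cast_nonneg _)
      _ = _ := by ring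
  have c2 : (#B2 : ℝ) ≤ #Ω / 8 := by
    refine le_of_mul_le_mul_right ((free_tail o (by omega) hW).trans ?_) (pow_pos hW 2)
    calc (#Ω : ℝ) * (25 * (p : ℝ) ^ 3) ≤ #Ω * (W ^ 2 / 8) :=
          mul_le_mul_of_nonneg_left h2 (Nat.cast_nonneg _)
      _ = _ := by ring
  have c3 : (#B3 : ℝ) ≤ #Ω / 8 := by
    set y := Real.exp (lam * (s : ℝ) ^ 3 / ((p : ℝ) - 1)) / lam ^ 13 with hy
    have hy0 : 0 ≤ y := by positivity
    refine ((Nat.cast_le.2 card_biUnion_le).trans (le_of_eq (Nat.cast_sum _ _))).trans ?_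
    have hterm : ∀ A ∈ As,
        (#(Ω.filter fun b => 13 * #A < #(multiDir A b)) : ℝ) ≤ #Ω * y ^ #A := by
      intro A hA
      have hAs' := (mem_filter.1 hA).2.2
      rw [hy, div_pow, ← pow_mul, ← mul_div_assoc, le_div_iff₀ (by positivity)]
      refine (multi_tail o A hlam).trans (mul_le_mul_of_nonneg_left ?_ (Nat.cast_nonneg _))
      rw [← Real.exp_nat_mul]
      refine Real.exp_le_exp.2 ?_
      rw [← mul_div_assoc]
      refine div_le_div_of_nonneg_right ?_ (by linarith)
      have h : (#A : ℝ) ^ 3 ≤ (s : ℝ) ^ 3 :=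
        pow_le_pow_left₀ (Nat.cast_nonneg _) (Nat.cast_le.2 hAs') 3
      calc lam * (#A : ℝ) ^ 4 = (#A : ℝ) * (lam * (#A : ℝ) ^ 3) := by ring
        _ ≤ _ := mul_le_mul_of_nonneg_left (mul_le_mul_of_nonneg_left h (by linarith))
            (Nat.cast_nonneg _)
    refine (sum_le_sum hterm).trans ?_
    rw [← mul_sum, div_eq_mul_one_div (#Ω : ℝ)]
    refine mul_le_mul_of_nonneg_left ?_ (Nat.cast_nonneg _)
    have hall : ∑ A ∈ (univ : Finset (PLine p)).powerset, y ^ #A =
        (1 + y) ^ #(univ : Finset (PLine p)) := by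
      rw [← prod_const, prod_one_add]; simp
    have hsub : ∑ A ∈ As, y ^ #A ≤
        (∑ A ∈ (univ : Finset (PLine p)).powerset, y ^ #A) - 1 := by
      rw [← sum_erase_add _ _ (empty_mem_powerset _), card_empty, pow_zero, add_sub_cancel_right]
      refine sum_le_sum_of_subset_of_nonneg (fun A hA => ?_) fun A _ _ => pow_nonneg hy0 _
      exact mem_erase.2 ⟨(mem_filter.1 hA).2.1, (mem_filter.1 hA).1⟩
    refine hsub.trans ?_
    rw [hall]
    set L : ℕ := #(univ : Finset (PLine p))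
    have hLy : (L : ℝ) * y ≤ 2 * (p : ℝ) ^ 2 * y := mul_le_mul_of_nonneg_right hL hy0
    have hLy1 : (L : ℝ) * y ≤ 1 / 16 := by linarith
    have h5 : (1 + y) ^ L ≤ Real.exp ((L : ℝ) * y) := by
      rw [Real.exp_nat_mul]
      exact pow_le_pow_left₀ (by linarith) (by rw [add_comm]; exact Real.add_one_le_exp _) _
    have hpos : (0 : ℝ) ≤ (L : ℝ) * y := by positivity
    have h6 := Real.abs_exp_sub_one_le (x := (L : ℝ) * y)
      (by rw [abs_of_nonneg hpos]; linarith)
    rw [abs_of_nonneg hpos] at h6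
    linarith [le_abs_self (Real.exp ((L : ℝ) * y) - 1)]
  have c4 : (#B4 : ℝ) ≤ #Ω / 8 := by
    refine ((Nat.cast_le.2 card_biUnion_le).trans (le_of_eq (Nat.cast_sum _ _))).trans ?_
    refine (sum_le_sum fun w hw => (left_tail o hp _).trans (mul_le_mul_of_nonneg_left
      (Real.exp_le_exp.2 (neg_le_neg (div_le_div_of_nonneg_right (mem_filter.1 hw).2
        (by norm_num)))) (Nat.cast_nonneg _))).trans ?_
    rw [sum_const, nsmul_eq_mul]
    have h : (#GH : ℝ) ≤ (2 * (p : ℝ) ^ 2) ^ (s + t) := by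
      refine (Nat.cast_le.2 (card_filter_le _ _)).trans ?_
      rw [card_univ, Fintype.card_prod, Fintype.card_fun, Fintype.card_fun, Fintype.card_fin,
        Fintype.card_fin, ← card_univ, ← pow_add, Nat.cast_pow]
      exact pow_le_pow_left₀ (Nat.cast_nonneg _) hL _
    calc _ ≤ (2 * (p : ℝ) ^ 2) ^ (s + t) * (#Ω * Real.exp (-(η / 32))) :=
          mul_le_mul_of_nonneg_right h (by positivity)
      _ = (#Ω : ℝ) * ((2 * (p : ℝ) ^ 2) ^ (s + t) * Real.exp (-(η / 32))) := by ring
      _ ≤ (#Ω : ℝ) * (1 / 8) := mul_le_mul_of_nonneg_left h4 (Nat.cast_nonneg _)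
      _ = _ := by ring
  obtain ⟨b, hb, hbad⟩ : ∃ b ∈ Ω, b ∉ B1 ∪ B2 ∪ B3 ∪ B4 := by
    by_contra hc
    push Not at hc
    have h := (Nat.cast_le (α := ℝ)).2 ((card_le_card hc).trans ((card_union_le _ _).trans
      (Nat.add_le_add_right ((card_union_le _ _).trans
        (Nat.add_le_add_right (card_union_le _ _) _)) _)))
    push_cast at h
    linarith
  simp only [mem_union, not_or] at hbad
  obtain ⟨⟨⟨n1, n2⟩, n3⟩, n4⟩ := hbad
  refine ⟨b, hb, fun l => not_lt.1 fun h => n1 (mem_biUnion.2 ⟨l, mem_univ _,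
    mem_filter.2 ⟨hb, h⟩⟩), not_lt.1 fun h => n2 (mem_filter.2 ⟨hb, h⟩), ?_⟩
  intro g hg h
  have hnn : (0 : ℝ) ≤ 32 * (53248 * k * s + 26 * s * H) := by positivity
  set U := samplePts g h with hU
  by_cases hη : η ≤ #U
  swap
  · have := not_le.1 hη
    have h0 : (0 : ℝ) ≤ #(U ∩ free b) := Nat.cast_nonneg _
    linarith
  have hM : ∀ A : Finset (PLine p), #A ≤ s → #(multiDir A b) ≤ 13 * #A := by
    intro A hA
    rcases eq_or_ne A ∅ with rfl | hne
    · simp [multiDir, dbl, mult]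
    · exact not_lt.1 fun hlt => n3 (mem_biUnion.2 ⟨A,
        mem_filter.2 ⟨mem_powerset.2 (subset_univ _), hne, hA⟩, mem_filter.2 ⟨hb, hlt⟩⟩)
  set V := left b (univ : Finset (Option (ZMod p))).toList U with hV
  have hk : #U ≤ 32 * #V := not_lt.1 fun hlt => n4 (mem_biUnion.2 ⟨(g, h),
    mem_filter.2 ⟨mem_univ _, hη⟩, mem_filter.2 ⟨hb, hlt⟩⟩)
  have hsub : V ⊆ (U ∩ free b) ∪ (multiDir (univ.image g) b).biUnion
      fun d => (dbl (univ.image g)).filter fun x => bOf d x = b d := by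
    intro x hx
    obtain ⟨h1', h2'⟩ := left_spec b (univ : Finset (Option (ZMod p))).toList U
    by_cases hf : x ∈ free b
    · exact mem_union_left _ (mem_inter.2 ⟨h1' hx, hf⟩)
    · simp only [free, mem_filter, mem_univ, true_and, not_forall, not_not] at hf
      obtain ⟨d, hd⟩ := hf
      have hUd : U ⊆ dbl (univ.image g) := filter_subset _ _
      refine mem_union_right _ (mem_biUnion.2 ⟨d, mem_filter.2 ⟨mem_univ _, ?_⟩,
        mem_filter.2 ⟨hUd (h1' hx), hd.symm⟩⟩)
      exact (h2' x hx d (mem_toList.2 (mem_univ _)) hd.symm).trans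
        (card_le_card (filter_subset_filter _ hUd))
  have h5 := (Nat.cast_le (α := ℝ)).2 ((card_le_card hsub).trans ((card_union_le _ _).trans
    (Nat.add_le_add_left card_biUnion_le _)))
  push_cast at h5
  have h6 := multi_hits_le hs hks hμ hM g hg
  have h7 := (Nat.cast_le (α := ℝ)).2 hk
  push_cast at h7
  have h8 : 0 ≤ η ∨ η < 0 := le_or_gt 0 η
  rcases h8 with h8 | h8
  · linarith
  · exact absurd h4 (not_le.2 (by
      have : (1 : ℝ) ≤ Real.exp (-(η / 32)) := Real.one_le_exp (by linarith)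
      have h9 : (1 : ℝ) ≤ (2 * (p : ℝ) ^ 2) ^ (s + t) := one_le_pow₀ (by nlinarith)
      nlinarith))

end Vale.Agent.P045.Thin
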