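import Vale.Agent.P045.Plane

/-!
# P045: a random choice of one line per direction

For each direction one line avoiding `o` is chosen. We count the choices for which a line keeps
too many free points, the free set is too small, few lines have too many double hits, or a given
point set loses too many points to single hits.
-/

open Finset
open scoped Classical

namespace Vale.Agent.P045.Thin

variable {p : ℕ} [Fact p.Prime]

/-- The intercept of the line of direction `d` through `x`. -/
def bOf (d : Option (ZMod p)) (x : ZMod p × ZMod p) : ZMod p :=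
  match d with
  | some a => x.2 - a * x.1
  | none => x.1

theorem mem_line {d : Option (ZMod p)} {b : ZMod p} {x : ZMod p × ZMod p} :
    x ∈ linePts (d, b) ↔ bOf d x = b := by
  cases d with
  | none => rw [mem_linePts_none, bOf]
  | some a =>
    rw [mem_linePts_some, bOf]
    exact ⟨fun h => by rw [h]; ring, fun h => by rw [← h]; ring⟩

theorem bOf_sep {x y : ZMod p × ZMod p} (hxy : x ≠ y) {d d' : Option (ZMod p)}
    (h : bOf d x = bOf d y) (h' : bOf d' x = bOf d' y) : d = d' := by
  by_contra hne
  exact hxy (card_le_one.1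
    (linePts_meet_le (d, bOf d x) (d', bOf d' x) fun e => hne (congrArg Prod.fst e))
    x (mem_inter.2 ⟨mem_line.2 rfl, mem_line.2 rfl⟩)
    y (mem_inter.2 ⟨mem_line.2 h.symm, mem_line.2 h'.symm⟩))

theorem bOf_inj_on {l : PLine p} {d : Option (ZMod p)} (hd : d ≠ l.1) {x y : ZMod p × ZMod p}
    (hx : x ∈ linePts l) (hy : y ∈ linePts l) (h : bOf d x = bOf d y) : x = y := by
  by_contra hne
  obtain ⟨d₀, b⟩ := l
  exact hd (bOf_sep hne h ((mem_line.1 hx).trans (mem_line.1 hy).symm))

theorem card_dir_eq_le_one {x y : ZMod p × ZMod p} (hxy : x ≠ y) :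
    #((univ : Finset (Option (ZMod p))).filter fun d => bOf d x = bOf d y) ≤ 1 :=
  card_le_one.2 fun _ ha _ hb => bOf_sep hxy (mem_filter.1 ha).2 (mem_filter.1 hb).2

/-- The allowed intercepts. -/
noncomputable def allowed (o : ZMod p × ZMod p) (d : Option (ZMod p)) : Finset (ZMod p) :=
  univ.erase (bOf d o)

/-- The possible choices of one line per direction. -/
noncomputable def choices (o : ZMod p × ZMod p) : Finset (Option (ZMod p) → ZMod p) :=
  Fintype.piFinset (allowed o)

/-- The points off all chosen lines. -/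
noncomputable def free (b : Option (ZMod p) → ZMod p) : Finset (ZMod p × ZMod p) :=
  univ.filter fun x => ∀ d, b d ≠ bOf d x

theorem card_allowed (o : ZMod p × ZMod p) (d : Option (ZMod p)) :
    #(allowed o d) = p - 1 := by
  rw [allowed, card_erase_of_mem (mem_univ _), card_univ, ZMod.card]

theorem card_choices (o : ZMod p × ZMod p) : #(choices o) = (p - 1) ^ (p + 1) := by
  simp [choices, card_allowed]

theorem cast_p_sub_one : ((p - 1 : ℕ) : ℝ) = (p : ℝ) - 1 := by
  rw [Nat.cast_sub (Fact.out : p.Prime).one_le, Nat.cast_one]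

theorem one_lt_p : (1 : ℝ) < p := by exact_mod_cast (Fact.out : p.Prime).one_lt

theorem avoid_eq (o : ZMod p × ZMod p) (A : Finset (ZMod p × ZMod p)) :
    #((choices o).filter fun b => A ⊆ free b) =
      ∏ d, #(allowed o d \ A.image (bOf d)) := by
  rw [← Fintype.card_piFinset]
  congr 1
  ext b
  simp only [choices, free, mem_filter, Fintype.mem_piFinset, mem_sdiff, mem_image, subset_iff,
    mem_univ, true_and, not_exists, not_and]
  constructor
  · exact fun h d => ⟨h.1 d, fun x hx e => h.2 hx d e.symm⟩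
  · exact fun h => ⟨fun d => (h d).1, fun x hx d e => (h d).2 x hx e.symm⟩

theorem card_allowed_sdiff (o : ZMod p × ZMod p) (d : Option (ZMod p)) (I : Finset (ZMod p)) :
    (#(allowed o d \ I) : ℝ) = ((p : ℝ) - 1) - #(I.erase (bOf d o)) := by
  have e : allowed o d \ I = allowed o d \ I.erase (bOf d o) := by
    ext z; simp [allowed]; tauto
  have hsub : I.erase (bOf d o) ⊆ allowed o d := fun z hz => by
    simp [allowed, (mem_erase.1 hz).1]
  rw [e, card_sdiff_of_subset hsub, Nat.cast_sub (card_le_card hsub), card_allowed, cast_p_sub_one]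

/-- A set is free with probability at most `exp (-C / (p - 1))`. -/
theorem avoid_le (o : ZMod p × ZMod p) (A : Finset (ZMod p × ZMod p))
    (c : Option (ZMod p) → ℕ) (hc : ∀ d, c d ≤ #((A.image (bOf d)).erase (bOf d o)))
    {C : ℝ} (hC : C ≤ ∑ d, (c d : ℝ)) :
    (#((choices o).filter fun b => A ⊆ free b) : ℝ) ≤
      #(choices o) * Real.exp (-C / ((p : ℝ) - 1)) := by
  have h1 : (0 : ℝ) < (p : ℝ) - 1 := sub_pos.2 one_lt_p
  rw [avoid_eq, Nat.cast_prod]
  calc ∏ d, (#(allowed o d \ A.image (bOf d)) : ℝ)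
      ≤ ∏ d : Option (ZMod p), ((p : ℝ) - 1) * Real.exp (-(c d : ℝ) / ((p : ℝ) - 1)) := by
        refine prod_le_prod (fun d _ => Nat.cast_nonneg _) fun d _ => ?_
        rw [card_allowed_sdiff]
        calc ((p : ℝ) - 1) - #((A.image (bOf d)).erase (bOf d o)) ≤ ((p : ℝ) - 1) - c d := by
              gcongr; exact hc d
          _ = ((p : ℝ) - 1) * (-(c d : ℝ) / ((p : ℝ) - 1) + 1) := by
              field_simp; ring
          _ ≤ _ := mul_le_mul_of_nonneg_left (Real.add_one_le_exp _) h1.le
    _ = #(choices o) * Real.exp (-(∑ d, (c d : ℝ)) / ((p : ℝ) - 1)) := by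
        rw [prod_mul_distrib, ← Real.exp_sum, prod_const, card_choices, Nat.cast_pow,
          cast_p_sub_one, ← sum_div, sum_neg_distrib]
        simp
    _ ≤ _ := by gcongr

/-- Points of a line are free with probability at most `exp (-#A)`. -/
theorem line_avoid_le (o : ZMod p × ZMod p) (l : PLine p) {A : Finset (ZMod p × ZMod p)}
    (hA : A ⊆ (linePts l).erase o) :
    (#((choices o).filter fun b => A ⊆ free b) : ℝ) ≤
      #(choices o) * Real.exp (-(#A : ℝ)) := by
  have h1 : (0 : ℝ) < (p : ℝ) - 1 := sub_pos.2 one_lt_p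
  set c : Option (ZMod p) → ℕ := fun d =>
    if d = l.1 then 0 else #(A.filter fun x => bOf d x ≠ bOf d o) with hc
  have hle : ∀ d, c d ≤ #((A.image (bOf d)).erase (bOf d o)) := by
    intro d
    simp only [hc]
    split_ifs with hd
    · exact Nat.zero_le _
    refine card_le_card_of_injOn (bOf d) (fun x hx => ?_) fun x hx y hy => ?_
    · obtain ⟨h1, h2⟩ := mem_filter.1 hx
      exact mem_erase.2 ⟨h2, mem_image_of_mem _ h1⟩
    · exact bOf_inj_on hd (mem_of_mem_erase (hA (mem_filter.1 hx).1))
        (mem_of_mem_erase (hA (mem_filter.1 hy).1))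
  have hsum : (#A : ℝ) * ((p : ℝ) - 1) ≤ ∑ d, (c d : ℝ) := by
    have h : #A * (p - 1) ≤ ∑ d, c d := by
      calc #A * (p - 1) = ∑ _x ∈ A, (p - 1) := by rw [sum_const, smul_eq_mul]
        _ ≤ ∑ x ∈ A, #((univ.erase l.1).filter fun d => bOf d x ≠ bOf d o) := by
          refine sum_le_sum fun x hx => ?_
          have h2 := card_dir_eq_le_one (mem_erase.1 (hA hx)).1
          have h3 := card_filter_add_card_filter_not
            (s := (univ : Finset (Option (ZMod p))).erase l.1) (fun d => bOf d x ≠ bOf d o)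
          have h4 : #(((univ : Finset (Option (ZMod p))).erase l.1).filter
              fun d => ¬bOf d x ≠ bOf d o) ≤ 1 :=
            le_trans (card_le_card fun d hd => by simp_all) h2
          rw [card_erase_of_mem (mem_univ _), card_univ, Fintype.card_option, ZMod.card] at h3
          omega
        _ = _ := by
          simp only [card_filter]
          rw [sum_comm, ← add_sum_erase univ c (mem_univ l.1)]
          simp only [hc, if_pos, zero_add]
          refine sum_congr rfl fun d hd => ?_
          rw [if_neg (mem_erase.1 hd).1, card_filter]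
    have h' := (Nat.cast_le (α := ℝ)).2 h
    push_cast at h'
    rwa [cast_p_sub_one] at h'
  refine (avoid_le o A c hle hsum).trans_eq ?_
  rw [neg_div, mul_div_cancel_right₀ _ h1.ne']

/-- Few choices leave many free points on a given line. -/
theorem line_tail (o : ZMod p × ZMod p) (l : PLine p) {T : ℝ} (hT1 : 1 ≤ T) (hTp : T ≤ p) :
    (#((choices o).filter fun b =>
        (p : ℝ) * Real.exp (-1) + 2 * T < #(linePts l ∩ free b)) : ℝ) ≤
      #(choices o) * Real.exp (-(T ^ 2 / (8 * p))) := by
  have hp : (0 : ℝ) < p := zero_lt_one.trans one_lt_p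
  set L := (linePts l).erase o with hL
  set z : ℝ := T / (4 * p) with hz
  have hz0 : 0 ≤ z := by rw [hz]; positivity
  have hz1 : z ≤ 1 := by rw [hz, div_le_one (by positivity)]; linarith
  have hmom : ∑ b ∈ choices o, (1 + z) ^ #(L ∩ free b) ≤
      #(choices o) * Real.exp (z * Real.exp (-1) * p) := by
    calc ∑ b ∈ choices o, (1 + z) ^ #(L ∩ free b)
        = ∑ A ∈ L.powerset, z ^ #A * (#((choices o).filter fun b => A ⊆ free b) : ℝ) := by
          simp only [card_filter, Nat.cast_sum, mul_sum]
          rw [sum_comm]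
          refine sum_congr rfl fun b _ => ?_
          have e : (L ∩ free b).powerset = L.powerset.filter fun A => A ⊆ free b := by
            ext A; rw [mem_powerset, mem_filter, mem_powerset, subset_inter_iff]
          rw [← prod_const, prod_one_add, e, sum_filter]
          refine sum_congr rfl fun A _ => ?_
          split_ifs <;> simp
      _ ≤ ∑ A ∈ L.powerset, (z * Real.exp (-1)) ^ #A * #(choices o) := by
          refine sum_le_sum fun A hA => ?_
          rw [mul_pow, ← Real.exp_nat_mul, mul_neg_one, mul_assoc,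
            mul_comm (Real.exp (-(#A : ℝ)))]
          exact mul_le_mul_of_nonneg_left (line_avoid_le o l (mem_powerset.1 hA))
            (pow_nonneg hz0 _)
      _ = (1 + z * Real.exp (-1)) ^ #L * #(choices o) := by
          rw [← sum_mul, ← prod_const, prod_one_add]
          simp
      _ ≤ _ := by
          rw [mul_comm]
          refine mul_le_mul_of_nonneg_left ?_ (Nat.cast_nonneg _)
          calc (1 + z * Real.exp (-1)) ^ #L ≤ (1 + z * Real.exp (-1)) ^ p :=
                pow_le_pow_right₀ (le_add_of_nonneg_right (by positivity))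
                  ((card_erase_le).trans (card_linePts l).le)
            _ ≤ Real.exp (z * Real.exp (-1)) ^ p :=
                pow_le_pow_left₀ (by positivity)
                  (by rw [add_comm]; exact Real.add_one_le_exp _) _
            _ = _ := by rw [← Real.exp_nat_mul]; ring_nf
  set bad := (choices o).filter fun b =>
    (p : ℝ) * Real.exp (-1) + 2 * T < #(linePts l ∩ free b) with hbad
  set M := (z - z ^ 2) * (p * Real.exp (-1) + T) with hM
  have hlow : (#(bad) : ℝ) * Real.exp M ≤ ∑ b ∈ choices o, (1 + z) ^ #(L ∩ free b) := by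
    rw [← nsmul_eq_mul, ← sum_const]
    refine (sum_le_sum fun b hb => ?_).trans
      (sum_le_sum_of_subset_of_nonneg (filter_subset _ _) fun b _ _ => pow_nonneg (by linarith) _)
    have hb' := (mem_filter.1 hb).2
    have h1 : #(linePts l ∩ free b) ≤ #(L ∩ free b) + 1 := by
      rw [hL, erase_inter]
      have := pred_card_le_card_erase (s := linePts l ∩ free b) (a := o)
      omega
    have h2 : (p : ℝ) * Real.exp (-1) + T ≤ #(L ∩ free b) := by
      have h1' := (Nat.cast_le (α := ℝ)).2 h1
      push_cast at h1'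
      linarith
    have hzz : Real.exp (z - z ^ 2) ≤ 1 + z := by
      have h3 : (1 + z)⁻¹ ≤ Real.exp (-(z - z ^ 2)) := by
        refine le_trans ?_ (Real.add_one_le_exp _)
        rw [inv_le_iff_one_le_mul₀ (by linarith)]
        nlinarith [pow_nonneg hz0 3]
      rw [Real.exp_neg] at h3
      exact (inv_le_inv₀ (by linarith) (Real.exp_pos _)).1 h3
    calc Real.exp M ≤ Real.exp ((z - z ^ 2) * #(L ∩ free b)) := by
          rw [hM]; gcongr; nlinarith
      _ = Real.exp (z - z ^ 2) ^ #(L ∩ free b) := by rw [← Real.exp_nat_mul, mul_comm]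
      _ ≤ _ := pow_le_pow_left₀ (Real.exp_pos _).le hzz _
  have hexp : z * Real.exp (-1) * p ≤ M + -(T ^ 2 / (8 * p)) := by
    have he : Real.exp (-1) ≤ 1 := Real.exp_le_one_iff.2 (by norm_num)
    have h4 : z * (4 * p) = T := div_mul_cancel₀ _ (by positivity)
    have h5 : z ^ 2 * (p * Real.exp (-1) + T) ≤ z ^ 2 * (2 * p) := by
      refine mul_le_mul_of_nonneg_left ?_ (sq_nonneg z)
      have : (p : ℝ) * Real.exp (-1) ≤ p := mul_le_of_le_one_right hp.le he
      linarith
    have h6 : T ^ 2 / (8 * p) = z * T / 2 := by rw [hz]; field_simp; ring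
    have h7 : z ^ 2 * (2 * p) = z * T / 2 := by rw [← h4]; ring
    have h8 : M = z * Real.exp (-1) * p + z * T - z ^ 2 * (p * Real.exp (-1) + T) := by
      rw [hM]; ring
    linarith
  refine le_of_mul_le_mul_right (hlow.trans (hmom.trans ?_)) (Real.exp_pos M)
  rw [mul_assoc (#(choices o) : ℝ)]
  refine mul_le_mul_of_nonneg_left ?_ (Nat.cast_nonneg _)
  rw [← Real.exp_add]
  exact Real.exp_le_exp.2 (by linarith)

/-- Few choices leave few free points. -/
theorem free_tail (o : ZMod p × ZMod p) (hp : 4 ≤ p) {W : ℝ} (hW : 0 < W) :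
    (#((choices o).filter fun b =>
        (#(free b) : ℝ) < (p : ℝ) ^ 2 * Real.exp (-1) - W) : ℝ) * W ^ 2 ≤
      #(choices o) * (25 * (p : ℝ) ^ 3) := by
  have hp4 : (4 : ℝ) ≤ p := by exact_mod_cast hp
  have h1 : (0 : ℝ) < (p : ℝ) - 1 := by linarith
  set E := Real.exp (-1) with hE
  have hE0 : 0 < E := Real.exp_pos _
  have hE1 : E ≤ 1 := Real.exp_le_one_iff.2 (by norm_num)
  set U := (univ : Finset (ZMod p × ZMod p)).erase o with hU
  have hcardU : (#U : ℝ) = (p : ℝ) ^ 2 - 1 := by
    rw [hU, card_erase_of_mem (mem_univ _), card_univ, Fintype.card_prod, ZMod.card,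
      Nat.cast_sub (Nat.mul_pos (Fact.out : p.Prime).pos (Fact.out : p.Prime).pos)]
    push_cast; ring
  set Ω := choices o with hΩ
  -- one point
  have hone : ∀ x ∈ U, (#Ω : ℝ) * (E * (1 - 10 / p)) ≤
      #(Ω.filter fun b => ({x} : Finset _) ⊆ free b) := by
    intro x _
    rw [hΩ, avoid_eq, Nat.cast_prod]
    refine le_trans ?_ (prod_le_prod (f := fun _ : Option (ZMod p) => (p : ℝ) - 2)
      (fun _ _ => by linarith) fun d _ => ?_)
    swap
    · rw [card_allowed_sdiff]
      have : #((({x} : Finset _).image (bOf d)).erase (bOf d o)) ≤ 1 :=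
        (card_erase_le).trans (card_image_le.trans (card_singleton x).le)
      have h' := (Nat.cast_le (α := ℝ)).2 this
      push_cast at h'
      linarith
    rw [prod_const, card_univ, Fintype.card_option, ZMod.card, card_choices, Nat.cast_pow,
      cast_p_sub_one]
    have hq : Real.exp (-((1 : ℝ) / (p - 2))) ≤ ((p : ℝ) - 2) / (p - 1) := by
      rw [Real.exp_neg, inv_le_iff_one_le_mul₀ (Real.exp_pos _)]
      calc (1 : ℝ) = ((p : ℝ) - 2) / (p - 1) * (1 / (p - 2) + 1) := by
            have : (p : ℝ) - 2 ≠ 0 := by linarith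
            field_simp; ring
        _ ≤ _ := mul_le_mul_of_nonneg_left (Real.add_one_le_exp _)
            (div_nonneg (by linarith) h1.le)
    calc ((p : ℝ) - 1) ^ (p + 1) * (E * (1 - 10 / p))
        ≤ ((p : ℝ) - 1) ^ (p + 1) * Real.exp (-((1 : ℝ) / (p - 2))) ^ (p + 1) := by
          refine mul_le_mul_of_nonneg_left ?_ (by positivity)
          have e : Real.exp (-((1 : ℝ) / (p - 2))) ^ (p + 1) = E * Real.exp (-(3 / ((p : ℝ) - 2))) := by
            have : (p : ℝ) - 2 ≠ 0 := by linarith
            rw [← Real.exp_nat_mul, hE, ← Real.exp_add]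
            congr 1
            push_cast
            field_simp; ring
          rw [e]
          refine mul_le_mul_of_nonneg_left (le_trans ?_ (Real.add_one_le_exp _)) hE0.le
          have : 3 / ((p : ℝ) - 2) ≤ 10 / p := by
            rw [div_le_div_iff₀ (by linarith) (by linarith)]; linarith
          linarith
      _ ≤ ((p : ℝ) - 1) ^ (p + 1) * (((p : ℝ) - 2) / (p - 1)) ^ (p + 1) := by gcongr
      _ = _ := by rw [← mul_pow, mul_div_cancel₀ _ h1.ne']
  -- two points
  have htwo : ∀ x ∈ U, ∀ y ∈ U, x ≠ y →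
      (#(Ω.filter fun b => ({x, y} : Finset _) ⊆ free b) : ℝ) ≤ #Ω * E ^ 2 := by
    intro x hx y hy hxy
    have hxo := (mem_erase.1 hx).1
    have hyo := (mem_erase.1 hy).1
    have hsum : 2 * p - 1 ≤ ∑ d : Option (ZMod p),
        #((({x, y} : Finset _).image (bOf d)).erase (bOf d o)) := by
      have hper : ∀ d : Option (ZMod p), 2 ≤
          #((({x, y} : Finset _).image (bOf d)).erase (bOf d o)) +
          ((if bOf d x = bOf d y then 1 else 0) + (if bOf d x = bOf d o then 1 else 0) +
            if bOf d y = bOf d o then 1 else 0) := by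
        intro d
        rw [image_insert, image_singleton]
        generalize bOf d x = u, bOf d y = v, bOf d o = w
        rcases eq_or_ne u v with rfl | huv
        · rcases eq_or_ne u w with rfl | huw
          · simp
          · simp [huw, erase_eq_of_notMem, Ne.symm huw]
        · rcases eq_or_ne u w with rfl | huw
          · simp [huv, Ne.symm huv]
          · rcases eq_or_ne v w with rfl | hvw
            · simp [huv, erase_insert_of_ne]
            · simp [huv, huw, hvw, erase_eq_of_notMem, Ne.symm huw, Ne.symm hvw]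
      have h := sum_le_sum fun d (_ : d ∈ (univ : Finset (Option (ZMod p)))) => hper d
      simp only [sum_const, card_univ, Fintype.card_option, ZMod.card, smul_eq_mul,
        sum_add_distrib, ← card_filter] at h
      have := card_dir_eq_le_one hxy
      have := card_dir_eq_le_one hxo
      have := card_dir_eq_le_one hyo
      omega
    refine (avoid_le o {x, y} _ (fun d => le_rfl) (C := 2 * (p : ℝ) - 1) ?_).trans ?_
    · have h' := (Nat.cast_le (α := ℝ)).2 hsum
      rw [Nat.cast_sub (by omega)] at h'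
      push_cast at h'
      exact h'
    · refine mul_le_mul_of_nonneg_left ?_ (Nat.cast_nonneg _)
      rw [hE, ← Real.exp_nat_mul]
      refine Real.exp_le_exp.2 ?_
      rw [div_le_iff₀ h1]
      push_cast
      linarith
  -- moments
  set F : (Option (ZMod p) → ZMod p) → ℝ := fun b => #(U ∩ free b) with hF
  have hF1 : (#Ω : ℝ) * (((p : ℝ) ^ 2 - 1) * (E * (1 - 10 / p))) ≤ ∑ b ∈ Ω, F b := by
    have e : ∑ b ∈ Ω, F b = ∑ x ∈ U, (#(Ω.filter fun b => ({x} : Finset _) ⊆ free b) : ℝ) := by
      simp only [hF, ← filter_mem_eq_inter, card_filter, Nat.cast_sum, singleton_subset_iff]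
      rw [sum_comm]
    rw [e]
    refine le_trans (le_of_eq ?_) (sum_le_sum hone)
    rw [sum_const, nsmul_eq_mul, hcardU]; ring
  have hF2 : ∑ b ∈ Ω, F b ^ 2 ≤ #Ω * ((p : ℝ) ^ 2 + (p : ℝ) ^ 4 * E ^ 2) := by
    have e : ∑ b ∈ Ω, F b ^ 2 =
        ∑ x ∈ U, ∑ y ∈ U, (#(Ω.filter fun b => ({x, y} : Finset _) ⊆ free b) : ℝ) := by
      simp only [hF, ← filter_mem_eq_inter, card_filter, Nat.cast_sum, pow_two, sum_mul, mul_sum,
        insert_subset_iff, singleton_subset_iff]
      rw [sum_comm]
      refine sum_congr rfl fun x _ => ?_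
      rw [sum_comm]
      refine sum_congr rfl fun y _ => sum_congr rfl fun b _ => ?_
      by_cases hx : x ∈ free b <;> by_cases hy : y ∈ free b <;> simp [hx, hy]
    rw [e]
    calc _ ≤ ∑ x ∈ U, ∑ y ∈ U, ((if x = y then (#Ω : ℝ) else 0) + #Ω * E ^ 2) := by
          refine sum_le_sum fun x hx => sum_le_sum fun y hy => ?_
          by_cases h : x = y
          · rw [if_pos h]
            exact le_trans (Nat.cast_le.2 (card_filter_le _ _))
              (le_add_of_nonneg_right (by positivity))
          · rw [if_neg h, zero_add]; exact htwo x hx y hy h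
      _ = #U * (#Ω : ℝ) + (#U : ℝ) * #U * (#Ω * E ^ 2) := by
          simp only [sum_add_distrib, sum_ite_eq, sum_const, nsmul_eq_mul]
          rw [sum_congr rfl fun x hx => if_pos hx, sum_const, nsmul_eq_mul]
          ring
      _ ≤ _ := by
          have h : (#U : ℝ) ≤ (p : ℝ) ^ 2 := by rw [hcardU]; linarith
          have h' : (#U : ℝ) * #U ≤ (p : ℝ) ^ 2 * (p : ℝ) ^ 2 :=
            mul_le_mul h h (Nat.cast_nonneg _) (sq_nonneg _)
          have a := mul_le_mul_of_nonneg_right h (Nat.cast_nonneg #Ω : (0 : ℝ) ≤ _)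
          have b := mul_le_mul_of_nonneg_right h'
            (show (0 : ℝ) ≤ #Ω * E ^ 2 by positivity)
          linarith
  set μ := (p : ℝ) ^ 2 * E with hμ
  set bad := Ω.filter fun b => (#(free b) : ℝ) < μ - W with hbad
  have hlow : (#(bad) : ℝ) * W ^ 2 ≤ ∑ b ∈ Ω, (F b - μ) ^ 2 := by
    rw [← nsmul_eq_mul, ← sum_const]
    refine (sum_le_sum fun b hb => ?_).trans
      (sum_le_sum_of_subset_of_nonneg (filter_subset _ _) fun b _ _ => sq_nonneg _)
    have hb' := (mem_filter.1 hb).2
    have : F b ≤ #(free b) := Nat.cast_le.2 (card_le_card inter_subset_right)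
    have h5 : #(U ∩ free b) ≤ #(free b) := card_le_card inter_subset_right
    have h6 : (W : ℝ) ≤ μ - F b := by linarith
    calc W ^ 2 ≤ (μ - F b) ^ 2 := pow_le_pow_left₀ hW.le h6 2
      _ = _ := by ring
  refine hlow.trans ?_
  have e : ∑ b ∈ Ω, (F b - μ) ^ 2 = ∑ b ∈ Ω, F b ^ 2 - 2 * μ * ∑ b ∈ Ω, F b + #Ω * μ ^ 2 := by
    simp only [sub_sq, sum_add_distrib, sum_sub_distrib, sum_const, nsmul_eq_mul, mul_sum]
    congr 2
    exact sum_congr rfl fun b _ => by ring
  rw [e]
  have h2 := mul_le_mul_of_nonneg_left hF1 (show 0 ≤ 2 * μ by positivity)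
  have h3 : (p : ℝ) ^ 2 + (p : ℝ) ^ 4 * E ^ 2
      - 2 * μ * (((p : ℝ) ^ 2 - 1) * (E * (1 - 10 / p))) + μ ^ 2 ≤ 25 * (p : ℝ) ^ 3 := by
    have hid : (p : ℝ) ^ 2 - ((p : ℝ) ^ 2 - 1) * (1 - 10 / p) = 10 * p + 1 - 10 / p := by
      field_simp; ring
    have h4 : (p : ℝ) ^ 4 * E ^ 2 - 2 * μ * (((p : ℝ) ^ 2 - 1) * (E * (1 - 10 / p))) + μ ^ 2 =
        2 * E ^ 2 * p ^ 2 * (10 * p + 1 - 10 / p) := by rw [← hid, hμ]; ring
    have h5 : 2 * E ^ 2 * (p : ℝ) ^ 2 * (10 * p + 1 - 10 / p) ≤ 2 * 1 * p ^ 2 * (11 * p) := by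
      have h6 : (0 : ℝ) ≤ 10 / p := by positivity
      have h7 : 10 / (p : ℝ) ≤ 10 := div_le_self (by norm_num) (by linarith)
      refine mul_le_mul ?_ (by linarith) (by linarith) (by positivity)
      refine mul_le_mul_of_nonneg_right ?_ (sq_nonneg _)
      exact mul_le_mul_of_nonneg_left (pow_le_one₀ hE0.le hE1) (by norm_num)
    have h8 : (p : ℝ) ^ 2 ≤ p ^ 3 := pow_le_pow_right₀ (by linarith) (by norm_num)
    linarith
  have h9 := mul_le_mul_of_nonneg_left h3 (Nat.cast_nonneg #Ω : (0 : ℝ) ≤ _)
  linarith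

/-- Points on at least two lines of `A`. -/
noncomputable def dbl (A : Finset (PLine p)) : Finset (ZMod p × ZMod p) :=
  univ.filter fun x => 2 ≤ mult A linePts x

/-- Directions whose chosen line meets `dbl A` twice. -/
noncomputable def multiDir (A : Finset (PLine p)) (b : Option (ZMod p) → ZMod p) :
    Finset (Option (ZMod p)) :=
  univ.filter fun d => 2 ≤ #((dbl A).filter fun x => bOf d x = b d)

theorem card_dbl_le (A : Finset (PLine p)) : #(dbl A) ≤ #A ^ 2 := by
  calc #(dbl A) ≤ #(A.offDiag.biUnion fun q => linePts q.1 ∩ linePts q.2) := by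
        refine card_le_card fun x hx => ?_
        obtain ⟨l, hl, l', hl', hne⟩ := one_lt_card.1 (mem_filter.1 hx).2
        obtain ⟨hlA, hxl⟩ := mem_filter.1 hl
        obtain ⟨hl'A, hxl'⟩ := mem_filter.1 hl'
        exact mem_biUnion.2 ⟨(l, l'), mem_offDiag.2 ⟨hlA, hl'A, hne⟩, mem_inter.2 ⟨hxl, hxl'⟩⟩
    _ ≤ ∑ q ∈ A.offDiag, #(linePts q.1 ∩ linePts q.2) := card_biUnion_le
    _ ≤ ∑ _q ∈ A.offDiag, 1 :=
        sum_le_sum fun q hq => linePts_meet_le _ _ (mem_offDiag.1 hq).2.2
    _ ≤ #A ^ 2 := by
        rw [sum_const, smul_eq_mul, mul_one, offDiag_card, pow_two]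
        exact Nat.sub_le _ _

/-- Few choices have many doubly hit directions. -/
theorem multi_tail (o : ZMod p × ZMod p) (A : Finset (PLine p)) {lam : ℝ} (hlam : 1 ≤ lam) :
    (#((choices o).filter fun b => 13 * #A < #(multiDir A b)) : ℝ) * lam ^ (13 * #A) ≤
      #(choices o) * Real.exp (lam * (#A : ℝ) ^ 4 / ((p : ℝ) - 1)) := by
  have h1 : (0 : ℝ) < (p : ℝ) - 1 := sub_pos.2 one_lt_p
  set rich : Option (ZMod p) → Finset (ZMod p) := fun d =>
    univ.filter fun j => 2 ≤ #((dbl A).filter fun x => bOf d x = j) with hrich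
  have hsum : ∑ d, #(rich d) ≤ #A ^ 4 := by
    calc ∑ d, #(rich d)
        ≤ ∑ d : Option (ZMod p), #((dbl A).offDiag.filter fun q => bOf d q.1 = bOf d q.2) := by
          refine sum_le_sum fun d _ => ?_
          refine card_le_card_of_surjOn (fun q => bOf d q.1) fun j hj => ?_
          obtain ⟨x, hx, y, hy, hne⟩ := one_lt_card.1 (mem_filter.1 hj).2
          obtain ⟨hxA, hxj⟩ := mem_filter.1 hx
          obtain ⟨hyA, hyj⟩ := mem_filter.1 hy
          exact ⟨(x, y), by simp [hxA, hyA, hne, hxj, hyj], hxj⟩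
      _ = ∑ q ∈ (dbl A).offDiag,
          #((univ : Finset (Option (ZMod p))).filter fun d => bOf d q.1 = bOf d q.2) := by
          simp only [card_filter]
          exact sum_comm
      _ ≤ ∑ _q ∈ (dbl A).offDiag, 1 :=
          sum_le_sum fun q hq => card_dir_eq_le_one (mem_offDiag.1 hq).2.2
      _ ≤ _ := by
          rw [sum_const, smul_eq_mul, mul_one, offDiag_card]
          refine (Nat.sub_le _ _).trans ?_
          rw [show #A ^ 4 = #A ^ 2 * #A ^ 2 by ring]
          exact Nat.mul_le_mul (card_dbl_le A) (card_dbl_le A)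
  have hmom : ∑ b ∈ choices o, lam ^ #(multiDir A b) ≤
      #(choices o) * Real.exp (lam * (#A : ℝ) ^ 4 / ((p : ℝ) - 1)) := by
    calc ∑ b ∈ choices o, lam ^ #(multiDir A b)
        = ∏ d, ∑ j ∈ allowed o d, (if j ∈ rich d then lam else 1) := by
          rw [prod_univ_sum]
          refine sum_congr rfl fun b _ => ?_
          rw [← prod_filter, prod_const]
          congr 2
          ext d; simp [multiDir, hrich]
      _ ≤ ∏ d : Option (ZMod p), ((p : ℝ) - 1) * Real.exp (lam * #(rich d) / ((p : ℝ) - 1)) := by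
          refine prod_le_prod (fun d _ => sum_nonneg fun j _ => by split_ifs <;> linarith)
            fun d _ => ?_
          calc ∑ j ∈ allowed o d, (if j ∈ rich d then lam else 1)
              ≤ ∑ j ∈ allowed o d, ((1 : ℝ) + if j ∈ rich d then lam else 0) :=
                sum_le_sum fun j _ => by split_ifs <;> linarith
            _ ≤ ((p : ℝ) - 1) + #(rich d) * lam := by
                rw [sum_add_distrib, sum_const, nsmul_eq_mul, mul_one, card_allowed, cast_p_sub_one,
                  sum_ite_mem, sum_const, nsmul_eq_mul]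
                gcongr
                exact inter_subset_right
            _ = ((p : ℝ) - 1) * (lam * #(rich d) / ((p : ℝ) - 1) + 1) := by field_simp; ring
            _ ≤ _ := mul_le_mul_of_nonneg_left (Real.add_one_le_exp _) h1.le
      _ ≤ _ := by
          rw [prod_mul_distrib, ← Real.exp_sum, prod_const, card_choices, Nat.cast_pow,
            cast_p_sub_one, ← sum_div, ← mul_sum, card_univ, Fintype.card_option, ZMod.card]
          gcongr
          exact_mod_cast hsum
  refine le_trans ?_ hmom
  rw [← nsmul_eq_mul, ← sum_const]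
  refine (sum_le_sum fun b hb => ?_).trans (sum_le_sum_of_subset_of_nonneg (filter_subset _ _)
    fun b _ _ => pow_nonneg (by linarith) _)
  exact pow_le_pow_right₀ hlam (mem_filter.1 hb).2.le

/-- Averaging over one coordinate. -/
theorem sum_swap (o : ZMod p × ZMod p) (d : Option (ZMod p))
    (h : ZMod p → (Option (ZMod p) → ZMod p) → ℝ)
    (hind : ∀ j f i, h j (Function.update f d i) = h j f) :
    ((p : ℝ) - 1) * ∑ f ∈ choices o, h (f d) f =
      ∑ j ∈ allowed o d, ∑ f ∈ choices o, h j f := by
  rw [← cast_p_sub_one, ← card_allowed o d, ← nsmul_eq_mul, ← sum_const]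
  rw [← sum_product', ← sum_product']
  refine sum_nbij' (fun q => (q.2 d, Function.update q.2 d q.1))
    (fun q => (q.2 d, Function.update q.2 d q.1)) ?_ ?_ ?_ ?_ ?_
  any_goals
    intro q hq
    simp only [mem_product, choices, Fintype.mem_piFinset] at hq ⊢
    refine ⟨hq.2 d, fun e => ?_⟩
    rcases eq_or_ne e d with rfl | he
    · simpa using hq.1
    · simpa [he] using hq.2 e
  all_goals intro q _
  · simp
  · simp
  · simp [hind]

/-- Remove the point met, if the line meets exactly one. -/
noncomputable def step (d : Option (ZMod p)) (j : ZMod p) (U : Finset (ZMod p × ZMod p)) :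
    Finset (ZMod p × ZMod p) :=
  if #(U.filter fun x => bOf d x = j) = 1 then U.filter fun x => bOf d x ≠ j else U

/-- The points left by single hits, direction by direction. -/
noncomputable def left (b : Option (ZMod p) → ZMod p) :
    List (Option (ZMod p)) → Finset (ZMod p × ZMod p) → Finset (ZMod p × ZMod p)
  | [], U => U
  | d :: l, U => left b l (step d (b d) U)

theorem left_congr {b b' : Option (ZMod p) → ZMod p} : ∀ (l : List (Option (ZMod p)))
    (_ : ∀ d ∈ l, b d = b' d) (U : Finset (ZMod p × ZMod p)), left b l U = left b' l U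
  | [], _, _ => rfl
  | d :: l, h, U => by
    rw [left, left, h d (List.mem_cons_self ..), left_congr l fun e he => h e (List.mem_cons_of_mem _ he)]

theorem left_spec (b : Option (ZMod p) → ZMod p) : ∀ (l : List (Option (ZMod p)))
    (U : Finset (ZMod p × ZMod p)), left b l U ⊆ U ∧
      ∀ x ∈ left b l U, ∀ d ∈ l, bOf d x = b d → 2 ≤ #(U.filter fun y => bOf d y = b d)
  | [], U => ⟨subset_rfl, fun _ _ _ h => absurd h (by simp)⟩
  | e :: l, U => by
    obtain ⟨h1, h2⟩ := left_spec b l (step e (b e) U)
    have hs : step e (b e) U ⊆ U := by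
      unfold step; split_ifs
      exacts [filter_subset _ _, subset_rfl]
    refine ⟨h1.trans hs, fun x hx d hd hxd => ?_⟩
    rcases List.mem_cons.1 hd with rfl | hd
    · have hx' := h1 hx
      unfold step at hx'
      split_ifs at hx' with hc
      · exact absurd hxd (mem_filter.1 hx').2
      · have : 0 < #(U.filter fun y => bOf d y = b d) :=
          card_pos.2 ⟨x, mem_filter.2 ⟨hx', hxd⟩⟩
        omega
    · exact (h2 x hx d hd hxd).trans (card_le_card (filter_subset_filter _ hs))

theorem left_moment (o : ZMod p × ZMod p) (hp : 3 ≤ p) : ∀ (l : List (Option (ZMod p))),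
    l.Nodup → ∀ U : Finset (ZMod p × ZMod p),
      ∑ b ∈ choices o, Real.exp (-(#(left b l U) : ℝ)) ≤
        #(choices o) * Real.exp (-((1 - 2 / ((p : ℝ) - 1)) ^ l.length * #U))
  | [], _, U => by simp [left]
  | d :: l, hnd, U => by
    obtain ⟨hdl, hl⟩ := List.nodup_cons.1 hnd
    have hp3 : (3 : ℝ) ≤ p := by exact_mod_cast hp
    have h1 : (0 : ℝ) < (p : ℝ) - 1 := by linarith
    set u := 2 / ((p : ℝ) - 1) with hu
    have hu0 : 0 ≤ u := by rw [hu]; positivity
    have hu1 : u ≤ 1 := by rw [hu, div_le_one h1]; linarith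
    set θ := (1 - u) ^ l.length with hθ
    have hθ0 : 0 ≤ θ := pow_nonneg (by linarith) _
    have hθ1 : θ ≤ 1 := pow_le_one₀ (by linarith) (by linarith)
    refine le_of_mul_le_mul_left ?_ h1
    simp only [left]
    rw [sum_swap o d (fun j b => Real.exp (-(#(left b l (step d j U)) : ℝ))) fun j f i => by
      rw [left_congr l fun (e : Option (ZMod p)) (he : e ∈ l) =>
        Function.update_of_ne (show e ≠ d from fun h => hdl (h ▸ he)) i f]]
    refine (sum_le_sum fun j _ => left_moment o hp l hl (step d j U)).trans ?_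
    rw [← mul_sum, mul_left_comm]
    refine mul_le_mul_of_nonneg_left ?_ (Nat.cast_nonneg _)
    set S := (allowed o d).filter fun j => #(U.filter fun x => bOf d x = j) = 1 with hS
    have hcard : (#S : ℝ) ≤ #U := by
      refine Nat.cast_le.2 (card_le_card_of_surjOn (bOf d) fun j hj => ?_)
      obtain ⟨x, hx⟩ := card_eq_one.1 (mem_filter.1 hj).2
      have hx' : x ∈ U.filter fun x => bOf d x = j := hx ▸ mem_singleton_self x
      exact ⟨x, (mem_filter.1 hx').1, (mem_filter.1 hx').2⟩
    have hterm : ∀ j ∈ allowed o d, Real.exp (-(θ * #(step d j U))) ≤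
        Real.exp (-(θ * #U)) * (1 + if j ∈ S then 2 * θ else 0) := by
      intro j hj
      by_cases hc : #(U.filter fun x => bOf d x = j) = 1
      · rw [if_pos (mem_filter.2 ⟨hj, hc⟩), step, if_pos hc]
        have e : #(U.filter fun x => bOf d x = j) + #(U.filter fun x => bOf d x ≠ j) = #U :=
          card_filter_add_card_filter_not (s := U) (fun x => bOf d x = j)
        have e' : (#(U.filter fun x => bOf d x ≠ j) : ℝ) = #U - 1 := by
          rw [hc] at e
          have h := congrArg (fun k : ℕ => (k : ℝ)) e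
          push_cast at h
          linarith
        rw [e', show -(θ * ((#U : ℝ) - 1)) = -(θ * #U) + θ by ring, Real.exp_add]
        refine mul_le_mul_of_nonneg_left ?_ (Real.exp_pos _).le
        have h := Real.abs_exp_sub_one_le (x := θ) (by rw [abs_of_nonneg hθ0]; exact hθ1)
        rw [abs_of_nonneg hθ0] at h
        linarith [le_abs_self (Real.exp θ - 1)]
      · have hns : j ∉ S := fun h => hc (mem_filter.1 h).2
        rw [if_neg hns, step, if_neg hc, add_zero, mul_one]
    refine (sum_le_sum hterm).trans ?_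
    rw [← mul_sum, sum_add_distrib, sum_const, nsmul_eq_mul, mul_one, card_allowed, cast_p_sub_one,
      sum_ite_mem, sum_const, nsmul_eq_mul, inter_eq_right.2 (filter_subset _ _), List.length_cons,
      pow_succ, ← hθ]
    calc Real.exp (-(θ * #U)) * (((p : ℝ) - 1) + #S * (2 * θ))
        ≤ Real.exp (-(θ * #U)) * (((p : ℝ) - 1) * Real.exp (θ * u * #U)) := by
          refine mul_le_mul_of_nonneg_left ?_ (Real.exp_pos _).le
          calc ((p : ℝ) - 1) + #S * (2 * θ) ≤ ((p : ℝ) - 1) + #U * (2 * θ) := by gcongr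
            _ = ((p : ℝ) - 1) * (θ * u * #U + 1) := by rw [hu]; field_simp; ring
            _ ≤ _ := mul_le_mul_of_nonneg_left (Real.add_one_le_exp _) h1.le
      _ = _ := by
          rw [mul_left_comm, ← Real.exp_add]; ring_nf

/-- Few choices destroy most of a point set by single hits. -/
theorem left_tail (o : ZMod p × ZMod p) (hp : 19 ≤ p) (U : Finset (ZMod p × ZMod p)) :
    (#((choices o).filter fun b =>
        32 * #(left b (univ : Finset (Option (ZMod p))).toList U) < #U) : ℝ) ≤
      #(choices o) * Real.exp (-((#U : ℝ) / 32)) := by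
  have hp19 : (19 : ℝ) ≤ p := by exact_mod_cast hp
  have h1 : (0 : ℝ) < (p : ℝ) - 1 := by linarith
  have hθ : (1 / 16 : ℝ) ≤ (1 - 2 / ((p : ℝ) - 1)) ^ (p + 1) := by
    have hq : Real.exp (-(2 / ((p : ℝ) - 3))) ≤ 1 - 2 / ((p : ℝ) - 1) := by
      rw [Real.exp_neg, inv_le_iff_one_le_mul₀ (Real.exp_pos _)]
      have h3 : (p : ℝ) - 3 ≠ 0 := by linarith
      calc (1 : ℝ) = (1 - 2 / ((p : ℝ) - 1)) * (2 / ((p : ℝ) - 3) + 1) := by field_simp; ring
        _ ≤ _ := mul_le_mul_of_nonneg_left (Real.add_one_le_exp _)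
            (sub_nonneg.2 (by rw [div_le_one h1]; linarith))
    refine le_trans ?_ (pow_le_pow_left₀ (Real.exp_pos _).le hq _)
    rw [← Real.exp_nat_mul]
    have h4 : Real.exp (5 / 2) ≤ 16 := by
      have e1 : Real.exp 1 ≤ 2.72 := Real.exp_one_lt_d9.le.trans (by norm_num)
      have e2 : Real.exp (1 / 2) ≤ 1 + 2 * (1 / 2) := by
        have h := Real.abs_exp_sub_one_le (x := (1 / 2 : ℝ)) (by norm_num)
        linarith [le_abs_self (Real.exp (1 / 2) - 1), abs_of_pos (show (0 : ℝ) < 1 / 2 by norm_num)]
      rw [show (5 / 2 : ℝ) = 1 + 1 + 1 / 2 by norm_num, Real.exp_add, Real.exp_add]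
      calc _ ≤ (2.72 : ℝ) * 2.72 * (1 + 2 * (1 / 2)) :=
            mul_le_mul (mul_le_mul e1 e1 (Real.exp_pos _).le (by norm_num)) e2
              (Real.exp_pos _).le (by norm_num)
        _ ≤ _ := by norm_num
    calc (1 / 16 : ℝ) ≤ Real.exp (-(5 / 2)) := by
          rw [Real.exp_neg, one_div]; exact inv_anti₀ (Real.exp_pos _) h4
      _ ≤ _ := by
          refine Real.exp_le_exp.2 ?_
          rw [mul_neg, neg_le_neg_iff, mul_div, div_le_div_iff₀ (by linarith) (by norm_num)]
          push_cast
          linarith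
  have h := left_moment o (by omega) _ (univ : Finset (Option (ZMod p))).nodup_toList U
  rw [length_toList, card_univ, Fintype.card_option, ZMod.card] at h
  set bad := (choices o).filter fun b =>
    32 * #(left b (univ : Finset (Option (ZMod p))).toList U) < #U with hbad
  have hlow : (#(bad) : ℝ) * Real.exp (-((#U : ℝ) / 32)) ≤
      #(choices o) * Real.exp (-((1 - 2 / ((p : ℝ) - 1)) ^ (p + 1) * #U)) := by
    refine le_trans ?_ h
    rw [← nsmul_eq_mul, ← sum_const]
    refine (sum_le_sum fun b hb => ?_).trans (sum_le_sum_of_subset_of_nonneg (filter_subset _ _)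
      fun b _ _ => (Real.exp_pos _).le)
    refine Real.exp_le_exp.2 ?_
    have h' := (Nat.cast_le (α := ℝ)).2 (mem_filter.1 hb).2.le
    push_cast at h'
    linarith
  refine le_of_mul_le_mul_right (hlow.trans ?_) (Real.exp_pos (-((#U : ℝ) / 32)))
  rw [mul_assoc]
  refine mul_le_mul_of_nonneg_left ?_ (Nat.cast_nonneg _)
  rw [← Real.exp_add]
  refine Real.exp_le_exp.2 ?_
  have := mul_le_mul_of_nonneg_right hθ (Nat.cast_nonneg #U : (0 : ℝ) ≤ _)
  linarith

end Vale.Agent.P045.Thin
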